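import Vale.Agent.P273.D14.H387.GSP

/-!
The functional `G` vanishes on graphs with a bridge, unless one side of the bridge is a single
vertex with two legs.
-/

noncomputable section
namespace Vale.Agent.P273.D14.H387
open Sum Vale.Agent.P273
open scoped Classical

variable {V E L : Type} {a : V → ℕ × Multiset ℕ}

/-- The functional vanishes on graphs with a bridge, unless one end of the bridge is a vertex of
valence one. -/
def Und.Br (φ : Und) : Prop := ∀ (V E : Type) [Finite V] [Finite E] (h : E × Bool → V) (t : E)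
  (S : Set V), (∀ e, e ≠ t → (h (e, true) ∈ S ↔ h (e, false) ∈ S)) → h (t, true) ∈ S →
  h (t, false) ∉ S → φ V E h ≠ 0 → ∃ b, ∀ y, h y = h (t, b) → y = (t, b)

lemma Und.Br.cut {φ : Und} (hφ : φ.Br) [Finite V] [Finite E] {h : E × Bool → V} {t : E} {b : Bool}
    {S : Set V} (hS : ∀ e, e ≠ t → (h (e, true) ∈ S ↔ h (e, false) ∈ S)) (h1 : h (t, b) ∈ S)
    (h2 : h (t, !b) ∉ S) (hf : φ V E h ≠ 0) : ∃ b', ∀ y, h y = h (t, b') → y = (t, b') := by
  cases b
  · exact hφ V E h t Sᶜ (fun e he => by simpa using not_congr (hS e he)) h2 (by simpa using h1) hf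
  · exact hφ V E h t S hS h1 h2 hf

lemma cut_one {h : E × Bool → V}
    (hcon : ∀ s : Set V, (∀ e, h (e, true) ∈ s ↔ h (e, false) ∈ s) → s = ∅ ∨ s = Set.univ)
    {t : E} {b : Bool} {S : Set V} (hS : ∀ e, e ≠ t → (h (e, true) ∈ S ↔ h (e, false) ∈ S))
    (h1 : h (t, b) ∈ S) (h2 : h (t, !b) ∉ S) {b' : Bool}
    (hb : ∀ y, h y = h (t, b') → y = (t, b')) : S = {h (t, b')} ∨ Sᶜ = {h (t, b')} := by
  have key : ∀ (S : Set V), (∀ e, e ≠ t → (h (e, true) ∈ S ↔ h (e, false) ∈ S)) →
      h (t, b') ∈ S → h (t, !b') ∉ S → S = {h (t, b')} := by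
    intro S hS h3 h4
    have h5 := hcon (S \ {h (t, b')}) (by
      intro e
      by_cases he : e = t
      · subst he
        have h6 : h (e, b') ∉ S \ {h (e, b')} := fun h => h.2 rfl
        have h7 : h (e, !b') ∉ S \ {h (e, b')} := fun h => h4 h.1
        cases b'
        · exact iff_of_false h7 h6
        · exact iff_of_false h6 h7
      · have h6 : ∀ c, h (e, c) ≠ h (t, b') := fun c hc => he (congrArg Prod.fst (hb _ hc))
        have h7 : ∀ c, h (e, c) ∈ S \ {h (t, b')} ↔ h (e, c) ∈ S :=
          fun c => ⟨fun h => h.1, fun h => ⟨h, h6 c⟩⟩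
        rw [h7, h7]
        exact hS e he)
    rcases h5 with h5 | h5
    · apply Set.Subset.antisymm
      · intro x hx
        by_contra hx'
        have : x ∈ S \ {h (t, b')} := ⟨hx, hx'⟩
        rw [h5] at this
        exact this
      · rintro x rfl
        exact h3
    · exfalso
      have : h (t, b') ∈ S \ {h (t, b')} := by rw [h5]; trivial
      exact this.2 rfl
  by_cases hbb : b' = b
  · subst hbb
    exact Or.inl (key S hS h1 h2)
  · right
    have hbb' : b' = !b := by cases b <;> cases b' <;> simp_all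
    subst hbb'
    apply key Sᶜ (fun e he => not_congr (hS e he)) h2
    simpa using h1

/-- The data at the end of a bridge. -/
theorem br_G {φ : Und} (hφ : φ.Br) {f : (E × Bool) ⊕ LL → V × ℕ} {t : E} {b : Bool} {S : Set V}
    (hS : ∀ e, e ≠ t → ((f (inl (e, true))).1 ∈ S ↔ (f (inl (e, false))).1 ∈ S))
    (h1 : (f (inl (t, b))).1 ∈ S) (h2 : (f (inl (t, !b))).1 ∉ S) (h : G φ V E a f ≠ 0) :
    ∃ v b', v = (f (inl (t, b'))).1 ∧ (∀ y, (f (inl y)).1 = v → y = (t, b')) ∧
      (S = {v} ∨ Sᶜ = {v}) ∧ rz a v = (0, 0) ∧ Q.nv f v = 3 ∧ ∀ y, (f y).1 = v → (f y).2 = 0 := by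
  have hv : Q.Valid a f 2 9 := by
    by_contra h3
    exact h (G_invalid h3)
  have h0 : G0 φ (rz a) f ≠ 0 := by
    intro h3
    rw [G_of_valid hv, h3, mul_zero] at h
    exact h rfl
  have hVf : Finite V := hv.1.1
  have hEf : Finite E := hv.1.2.1
  have hcon := hv.1.2.2.2.1
  -- it is enough to find the vertex
  have main : ∀ b', (∀ y, (f (inl y)).1 = (f (inl (t, b'))).1 → y = (t, b')) →
      rz a (f (inl (t, b'))).1 = (0, 0) →
      (∀ y, (f y).1 = (f (inl (t, b'))).1 → (f y).2 = 0) → ∃ v b', v = (f (inl (t, b'))).1 ∧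
      (∀ y, (f (inl y)).1 = v → y = (t, b')) ∧
      (S = {v} ∨ Sᶜ = {v}) ∧ rz a v = (0, 0) ∧ Q.nv f v = 3 ∧ ∀ y, (f y).1 = v → (f y).2 = 0 := by
    intro b' h3 h4 h5
    refine ⟨_, b', rfl, h3, cut_one (h := fun y => (f (inl y)).1) hcon hS h1 h2 h3, h4, ?_, h5⟩
    obtain ⟨k1, k2, k3, k4⟩ := sp_G h (f (inl (t, b'))).1
    have h6 : dd a f (f (inl (t, b'))).1 = 0 := by
      apply dd_zero
      · rw [← rz_sum, h4]; rfl
      · intro y hy hy'
        exact hy (h5 y hy')
    have h7 : (a (f (inl (t, b'))).1).1 = 0 := congrArg Prod.fst h4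
    have h8 : nl f true (f (inl (t, b'))).1 = 1 := by omega
    have h9 : nl f false (f (inl (t, b'))).1 = 1 := by omega
    have := Fintype.ofFinite E
    unfold nl at h8 h9
    unfold Q.nv
    rw [Nat.card_eq_fintype_card, Fintype.card_subtype] at h8 h9 ⊢
    have e1 : (Finset.univ.filter fun y : (E × Bool) ⊕ LL => (f y).1 = (f (inl (t, b'))).1) =
        {inl (t, b')} ∪ ((Finset.univ.filter fun i : Fin 8 => (f (inr (i, true))).1 =
          (f (inl (t, b'))).1).image (fun i => (inr (i, true) : (E × Bool) ⊕ LL)) ∪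
        (Finset.univ.filter fun i : Fin 8 => (f (inr (i, false))).1 =
          (f (inl (t, b'))).1).image (fun i => (inr (i, false) : (E × Bool) ⊕ LL))) := by
      ext y
      simp only [Finset.mem_filter, Finset.mem_univ, true_and, Finset.mem_union,
        Finset.mem_singleton, Finset.mem_image]
      constructor
      · intro hy
        rcases y with y | ⟨i, _ | _⟩
        · exact Or.inl (congrArg inl (h3 y hy))
        · exact Or.inr (Or.inr ⟨i, hy, rfl⟩)
        · exact Or.inr (Or.inl ⟨i, hy, rfl⟩)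
      · rintro (rfl | ⟨i, hi, rfl⟩ | ⟨i, hi, rfl⟩)
        · rfl
        · exact hi
        · exact hi
    rw [e1, Finset.card_union_of_disjoint, Finset.card_union_of_disjoint, Finset.card_image_of_injective,
      Finset.card_image_of_injective, h8, h9, Finset.card_singleton]
    · intro i j hij
      simpa using hij
    · intro i j hij
      simpa using hij
    · rw [Finset.disjoint_left]
      intro y hy hy'
      obtain ⟨i, -, rfl⟩ := Finset.mem_image.1 hy
      obtain ⟨j, -, hj⟩ := Finset.mem_image.1 hy'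
      simp at hj
    · rw [Finset.disjoint_left]
      intro y hy hy'
      rw [Finset.mem_singleton] at hy
      subst hy
      rw [Finset.mem_union, Finset.mem_image, Finset.mem_image] at hy'
      rcases hy' with ⟨j, -, hj⟩ | ⟨j, -, hj⟩ <;> cases hj
  rcases G0_ne h0 with ⟨k1, k2⟩ | ⟨w, k1, k2⟩
  · have hval : φ V E (fun y => (f (inl y)).1) ≠ 0 := by
      intro h3
      apply h0
      rw [k2]
      unfold val
      rw [h3, mul_zero]
    obtain ⟨b', hb'⟩ := hφ.cut (h := fun y => (f (inl y)).1) hS h1 h2 hval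
    exact main b' hb' (k1.1 _) (fun y _ => k1.2 y)
  · have hlp : val φ (lp (fun y => (f y).1) w) ≠ 0 → ∃ b' : Bool, (f (inl (t, b'))).1 ≠ w ∧
        ∀ y, (f (inl y)).1 = (f (inl (t, b'))).1 → y = (t, b') := by
      intro h3
      have hval : φ V (Option E) (fun y => lp (fun y => (f y).1) w (inl y)) ≠ 0 := by
        intro h4
        apply h3
        unfold val
        rw [h4, mul_zero]
      obtain ⟨b', hb'⟩ := hφ.cut (h := fun y => lp (fun y => (f y).1) w (inl y)) (t := some t)
        (b := b) (S := S) (by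
          rintro (_ | e) he
          · exact Iff.rfl
          · exact hS e (fun h => he (congrArg some h))) h1 h2 hval
      refine ⟨b', ?_, ?_⟩
      · intro hw
        have := hb' (none, true) hw.symm
        cases this
      · intro y hy
        have := hb' (some y.1, y.2) hy
        have h4 := congrArg Prod.fst this
        have h5 := congrArg Prod.snd this
        exact Prod.ext (Option.some_injective _ h4) h5
    have fin : (∃ b' : Bool, (f (inl (t, b'))).1 ≠ w ∧
        ∀ y, (f (inl y)).1 = (f (inl (t, b'))).1 → y = (t, b')) → ∃ v b',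
        v = (f (inl (t, b'))).1 ∧ (∀ y, (f (inl y)).1 = v → y = (t, b')) ∧
        (S = {v} ∨ Sᶜ = {v}) ∧ rz a v = (0, 0) ∧ Q.nv f v = 3 ∧
          ∀ y, (f y).1 = v → (f y).2 = 0 := by
      rintro ⟨b', h3, h4⟩
      apply main b' h4 (k1.2.1 _ h3)
      intro y hy
      by_contra h5
      exact h3 (hy.symm.trans (k1.2.2 y h5))
    rcases k2 with ⟨-, -, h4⟩ | ⟨-, -, h4⟩ | ⟨-, -, -, h5⟩
    · apply fin (hlp _)
      intro h5
      apply h0
      rw [h4, h5, mul_zero]
    · apply fin (hlp _)
      intro h5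
      apply h0
      rw [h4, h5, mul_zero]
    · have hex : ∃ T, Spl f w T ∧ val φ (db (fun y => (f y).1) w T) ≠ 0 := by
        by_contra hcon
        apply h0
        rw [h5]
        have : ∑ᶠ (T) (_ : Spl f w T), val φ (db (fun y => (f y).1) w T) = 0 := by
          apply finsum_eq_zero_of_forall_eq_zero
          intro T
          rw [finsum_eq_if]
          split_ifs with hT
          · by_contra h6
            exact hcon ⟨T, hT, h6⟩
          · rfl
        rw [this, mul_zero]
      obtain ⟨T, hT, h6⟩ := hex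
      apply fin
      have hval : φ (Option V) (E ⊕ Bool) (fun y => db (fun y => (f y).1) w T (inl y)) ≠ 0 := by
        intro h7
        apply h6
        unfold val
        rw [h7, mul_zero]
      have hmem : ∀ y : E × Bool, db (fun y => (f y).1) w T (inl (inl y.1, y.2)) ∈
          {x : Option V | x.elim (w ∈ S) (· ∈ S)} ↔ (f (inl y)).1 ∈ S := by
        intro y
        show (if (inl (y.1, y.2) : (E × Bool) ⊕ LL) ∈ T then none else some (f (inl (y.1, y.2))).1) ∈ _ ↔ _
        split_ifs with h7
        · rw [hT.1 _ h7]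
          rfl
        · rfl
      obtain ⟨b', hb'⟩ := hφ.cut (h := fun y => db (fun y => (f y).1) w T (inl y)) (t := inl t)
        (b := b) (S := {x : Option V | x.elim (w ∈ S) (· ∈ S)}) (by
          rintro (e | c) he
          · rw [hmem (e, true), hmem (e, false)]
            exact hS e (fun h => he (congrArg inl h))
          · exact Iff.rfl) ((hmem (t, b)).2 h1) (fun h => h2 ((hmem (t, !b)).1 h)) hval
      have hT' : (inl (t, b') : (E × Bool) ⊕ LL) ∉ T := by
        intro h7
        have h8 : db (fun y => (f y).1) w T (inl (inl t, b')) = none := if_pos h7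
        have := hb' (inr true, false) h8.symm
        cases this
      have h8 : db (fun y => (f y).1) w T (inl (inl t, b')) = some (f (inl (t, b'))).1 := if_neg hT'
      have hw : (f (inl (t, b'))).1 ≠ w := by
        intro h9
        have h10 : db (fun y => (f y).1) w T (inl (inr true, true)) = some w := rfl
        have := hb' (inr true, true) (by
          show db (fun y => (f y).1) w T (inl (inr true, true)) = _
          rw [h10, h8, h9])
        cases this
      refine ⟨b', hw, ?_⟩
      intro y hy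
      have h11 : (inl y : (E × Bool) ⊕ LL) ∉ T := by
        intro h12
        exact hw (hy.symm.trans (hT.1 _ h12))
      have h13 : db (fun y => (f y).1) w T (inl (inl y.1, y.2)) = some (f (inl y)).1 := if_neg h11
      have := hb' (inl y.1, y.2) (by
        show db (fun y => (f y).1) w T (inl (inl y.1, y.2)) = _
        rw [h13, h8, hy])
      have h14 := congrArg Prod.fst this
      have h15 := congrArg Prod.snd this
      exact Prod.ext (inl_injective h14) h15

/-- There are legs of both colours at each vertex. -/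
theorem sp_G' {φ : Und} {f : (E × Bool) ⊕ LL → V × ℕ} (h : G φ V E a f ≠ 0) (s : Bool) (v : V) :
    ∃ i, (f (inr (i, s))).1 = v := by
  obtain ⟨h1, h2, -, -⟩ := sp_G h v
  have h3 : nl f s v ≠ 0 := by
    cases s <;> omega
  by_contra hcon
  rw [not_exists] at hcon
  apply h3
  unfold nl
  have : IsEmpty {i : Fin 8 // (f (inr (i, s))).1 = v} := ⟨fun x => hcon x.1 x.2⟩
  exact Nat.card_of_isEmpty

/-- The data at the end of a bridge, without `κ_0`. -/
theorem br_G' {φ : Und} (hφ : φ.Br) {f : (E × Bool) ⊕ LL → V × ℕ} {t : E} {b : Bool} {S : Set V}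
    (hS : ∀ e, e ≠ t → ((f (inl (e, true))).1 ∈ S ↔ (f (inl (e, false))).1 ∈ S))
    (h1 : (f (inl (t, b))).1 ∈ S) (h2 : (f (inl (t, !b))).1 ∉ S) (h : G φ V E a f ≠ 0) :
    ∃ v, (S = {v} ∨ Sᶜ = {v}) ∧ (0 ∉ (a v).2 → a v = (0, 0)) ∧ Q.nv f v = 3 := by
  obtain ⟨v, b', -, -, h3, h4, h5, -⟩ := br_G hφ hS h1 h2 h
  refine ⟨v, h3, fun h6 => ?_, h5⟩
  rw [← h4]
  unfold rz
  rw [Multiset.filter_eq_self.2 (fun x hx h0 => by subst h0; exact h6 hx)]

end Vale.Agent.P273.D14.H387
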