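import Vale.Agent.P273.D14.H387.Mor

/-!
The functional `G` satisfies the trivial relations and is antisymmetric in the `A`-legs and in the
`B`-legs.
-/

noncomputable section
namespace Vale.Agent.P273.D14.H387
open Sum Vale.Agent.P273
open scoped Classical

variable {V E V' E' L : Type} {a : V → ℕ × Multiset ℕ} {a' : V' → ℕ × Multiset ℕ}
    {p : V → V'} {q : E × Bool → E' × Bool}

lemma DMor.ty1 {f : (E × Bool) ⊕ L → V × ℕ} {f' : (E' × Bool) ⊕ L → V' × ℕ} {τ : L → L}
    (M : DMor a f a' f' p q τ) : Ty1 a' f' ↔ Ty1 a f := by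
  unfold Ty1
  rw [M.forall_y]
  simp only [M.hn]
  refine and_congr ?_ Iff.rfl
  constructor
  · intro h v
    rw [← M.ha]; exact h _
  · intro h v
    obtain ⟨u, rfl⟩ := M.m.hp.2 v
    rw [M.ha]; exact h u

lemma DMor.ty {f : (E × Bool) ⊕ L → V × ℕ} {f' : (E' × Bool) ⊕ L → V' × ℕ} {τ : L → L}
    (M : DMor a f a' f' p q τ) (w : V) : Ty a' f' (p w) ↔ Ty a f w := by
  unfold Ty
  rw [M.forall_y, M.ha]
  simp only [M.hn, M.fst, M.m.hp.1.eq_iff]
  refine and_congr Iff.rfl (and_congr ?_ Iff.rfl)
  constructor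
  · intro h v hv
    rw [← M.ha]; exact h _ (fun h => hv (M.m.hp.1 h))
  · intro h v hv
    obtain ⟨u, rfl⟩ := M.m.hp.2 v
    rw [M.ha]; exact h u (fun h => hv (congrArg p h))

lemma DMor.spl {f : (E × Bool) ⊕ L → V × ℕ} {f' : (E' × Bool) ⊕ L → V' × ℕ} {τ : L → L}
    (M : DMor a f a' f' p q τ) (w : V) (S : Set ((E × Bool) ⊕ L)) :
    Spl f' (p w) (Sum.map q τ '' S) ↔ Spl f w S := by
  have hi := (map_bij M.m.hq M.m.hτ).1
  unfold Spl
  refine and_congr ?_ ?_
  · rw [Set.forall_mem_image]
    simp only [M.fst, M.m.hp.1.eq_iff]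
  · have h0 : ∀ x, (f' (inr (τ x))).1 = p (f (inr x)).1 := fun x => M.fst (inr x)
    have h2 : ∀ x, (f' (inr (τ x))).2 = (f (inr x)).2 := fun x => M.hn (inr x)
    have h1 : ∀ x, (inr (τ x) : (E' × Bool) ⊕ L) ∈ Sum.map q τ '' S ↔ inr x ∈ S :=
      fun x => hi.mem_set_image (a := inr x)
    constructor
    · intro h x hx
      have := h (τ x) (by rw [h0, hx])
      rwa [h1, h2] at this
    · intro h x hx
      obtain ⟨z, rfl⟩ := M.m.hτ.2 x
      rw [h1, h2]
      rw [h0] at hx
      exact h z (M.m.hp.1 hx)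

lemma DMor.onL {f : (E × Bool) ⊕ L → V × ℕ} {f' : (E' × Bool) ⊕ L → V' × ℕ} {τ : L → L}
    (M : DMor a f a' f' p q τ) : OnL f' ↔ OnL f := by
  refine and_congr ?_ ?_
  · constructor
    · intro h2 y
      rw [← M.hn (inl y)]; exact h2 _
    · intro h2 y
      obtain ⟨z, rfl⟩ := M.m.hq.2 y
      exact (M.hn (inl z)).trans (h2 z)
  · constructor
    · intro h2 y
      rw [← M.hn (inr y)]; exact h2 _
    · intro h2 y
      obtain ⟨z, rfl⟩ := M.m.hτ.2 y
      exact (M.hn (inr z)).trans_le (h2 z)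

lemma finsum_image {α β : Type} {κ : α → β} (hκ : κ.Bijective) (F : Set β → ℚ) :
    ∑ᶠ S, F S = ∑ᶠ S, F (κ '' S) :=
  (finsum_comp_equiv (Equiv.Set.congr (Equiv.ofBijective κ hκ)) (f := F)).symm

lemma DMor.g0 {f : (E × Bool) ⊕ LL → V × ℕ} {f' : (E' × Bool) ⊕ LL → V' × ℕ} {τ : LL → LL}
    (M : DMor a f a' f' p q τ) {φ : Und} (hφ : φ.Inv) {c : ℚ} (hc : Sgn τ c) :
    G0 φ a f = c * G0 φ a' f' := by
  unfold G0
  rw [mul_add]
  congr 1
  · rw [M.ty1]
    by_cases h : Ty1 a f
    · rw [if_pos h, if_pos h, M.m.val hφ hc]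
    · rw [if_neg h, if_neg h, mul_zero]
  · have hsm : ∀ F : V' → ℚ, c * ∑ᶠ v, F v = ∑ᶠ v, c * F (p v) := by
      intro F
      rw [← smul_eq_mul, smul_finsum, ← finsum_comp_equiv (Equiv.ofBijective p M.m.hp)]
      rfl
    rw [hsm]
    refine finsum_congr fun w => ?_
    have h1 := M.ty w
    by_cases h : Ty a f w
    swap
    · rw [finsum_eq_if, finsum_eq_if, if_neg h, if_neg (fun h' => h (h1.1 h')), mul_zero]
    rw [finsum_eq_if, finsum_eq_if, if_pos h, if_pos (h1.2 h), mul_add, mul_add, M.ha, M.sum,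
      M.nv, (M.m.lp w).val hφ hc]
    rw [M.onL]
    congr 1
    · congr 1
      · split_ifs
        · ring
        · ring
      · split_ifs
        · ring
        · ring
    · split_ifs with h3
      · rw [mul_left_comm]
        congr 1
        rw [finsum_image (map_bij M.m.hq M.m.hτ), ← smul_eq_mul, smul_finsum]
        refine finsum_congr fun S => ?_
        have h4 := M.spl w S
        by_cases h5 : Spl f w S
        · rw [finsum_eq_if, finsum_eq_if, if_pos h5, if_pos (h4.2 h5), smul_eq_mul,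
            (M.m.db w S).val hφ hc]
        · rw [finsum_eq_if, finsum_eq_if, if_neg h5, if_neg (fun h => h5 (h4.1 h)), smul_zero]
      · ring

lemma DMor.rz {f : (E × Bool) ⊕ L → V × ℕ} {f' : (E' × Bool) ⊕ L → V' × ℕ} {τ : L → L}
    (M : DMor a f a' f' p q τ) : DMor (rz a) f (rz a') f' p q τ :=
  ⟨M.m, fun v => by unfold H387.rz; rw [M.ha], M.hn⟩

lemma DMor.zfac {f : (E × Bool) ⊕ L → V × ℕ} {f' : (E' × Bool) ⊕ L → V' × ℕ} {τ : L → L}
    (M : DMor a f a' f' p q τ) : zfac a' f' = zfac a f := by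
  unfold H387.zfac
  rw [← finprod_comp_equiv (Equiv.ofBijective p M.m.hp)]
  refine finprod_congr fun v => ?_
  rw [Equiv.ofBijective_apply, M.ha, M.nv]

lemma DMor.g {f : (E × Bool) ⊕ LL → V × ℕ} {f' : (E' × Bool) ⊕ LL → V' × ℕ} {τ : LL → LL}
    (M : DMor a f a' f' p q τ) {φ : Und} (hφ : φ.Inv) {c : ℚ} (hc : Sgn τ c) :
    G φ V E a f = c * G φ V' E' a' f' := by
  unfold G
  rw [M.valid, M.zfac, M.rz.g0 hφ hc]
  split_ifs
  · ring
  · ring

/-- Transposition of two `A`-legs or of two `B`-legs. -/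
lemma sgn_swap {i j : Fin 8} (hij : i ≠ j) (s : Bool) : Sgn (Equiv.swap (i, s) (j, s)) (-1) := by
  intro V α
  have hne : ∀ k t, t ≠ s → Equiv.swap (i, s) (j, s) (k, t) = (k, t) := by
    intro k t ht
    apply Equiv.swap_apply_of_ne_of_ne
    · intro h; exact ht (Prod.ext_iff.1 h).2
    · intro h; exact ht (Prod.ext_iff.1 h).2
  have heq : ∀ k, Equiv.swap (i, s) (j, s) (k, s) = (Equiv.swap i j k, s) := by
    intro k
    by_cases h1 : k = i
    · subst h1; rw [Equiv.swap_apply_left, Equiv.swap_apply_left]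
    by_cases h2 : k = j
    · subst h2; rw [Equiv.swap_apply_right, Equiv.swap_apply_right]
    rw [Equiv.swap_apply_of_ne_of_ne h1 h2, Equiv.swap_apply_of_ne_of_ne]
    · intro h; exact h1 (Prod.ext_iff.1 h).1
    · intro h; exact h2 (Prod.ext_iff.1 h).1
  have hsgn : ((Equiv.Perm.sign (Equiv.swap i j) : ℤ) : ℚ) = -1 := by
    rw [Equiv.Perm.sign_swap hij]; simp
  unfold sgM
  cases s
  · have h : (Matrix.of fun k l : Fin 8 => if α (Equiv.swap (i, false) (j, false) (k, true)) =
        α (Equiv.swap (i, false) (j, false) (l, false)) then (1 : ℚ) else 0) =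
        (Matrix.of fun k l : Fin 8 => if α (k, true) = α (l, false) then (1 : ℚ) else 0).submatrix
          id (Equiv.swap i j) := by
      ext k l
      rw [Matrix.submatrix_apply, Matrix.of_apply, Matrix.of_apply, hne k true (by simp), heq]
      rfl
    rw [h, Matrix.det_permute', hsgn]
  · have h : (Matrix.of fun k l : Fin 8 => if α (Equiv.swap (i, true) (j, true) (k, true)) =
        α (Equiv.swap (i, true) (j, true) (l, false)) then (1 : ℚ) else 0) =
        (Matrix.of fun k l : Fin 8 => if α (k, true) = α (l, false) then (1 : ℚ) else 0).submatrix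
          (Equiv.swap i j) id := by
      ext k l
      rw [Matrix.submatrix_apply, Matrix.of_apply, Matrix.of_apply, hne l false (by simp), heq]
      rfl
    rw [h, Matrix.det_permute, hsgn]

/-- `G` is antisymmetric in the legs of each colour. -/
theorem anti_G {φ : Und} (hφ : φ.Inv) {i j : Fin 8} (hij : i ≠ j) (s : Bool) (V E : Type)
    (a : V → ℕ × Multiset ℕ) (f : (E × Bool) ⊕ LL → V × ℕ) :
    G φ V E a (fun y => f (y.map id (Equiv.swap (i, s) (j, s)))) = - G φ V E a f := by
  have M : DMor a (fun y => f (y.map id (Equiv.swap (i, s) (j, s)))) a f id id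
      (Equiv.swap (i, s) (j, s)) :=
    ⟨⟨Function.bijective_id, Function.bijective_id, (Equiv.swap (i, s) (j, s)).bijective,
      fun _ => rfl, fun _ => rfl⟩, fun _ => rfl, fun _ => rfl⟩
  rw [M.g hφ (sgn_swap hij s)]
  ring

lemma zf_succ (x : ℚ) (z : ℕ) : zf x (z + 1) = (x + z) * zf x z := by
  unfold zf
  rw [Finset.prod_range_succ, mul_comm]

lemma zf_zero (x : ℚ) : zf x 0 = 1 := by simp [zf]

/-- The functional satisfies the trivial relations. -/
theorem tr_G {φ : Und} (hφ : φ.Inv) : Q.Tr 2 9 (G φ) := by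
  refine ⟨?_, ?_, ?_⟩
  · intro V E a f h
    unfold G
    rw [if_neg h]
  · intro V E V' E' a f f' p q hp hq hs hh
    have M : DMor (a ∘ p) f a f' p q id :=
      ⟨⟨hp, hq, Function.bijective_id, hs, fun y => by rw [hh]; rfl⟩, fun _ => rfl,
        fun y => by rw [hh]; rfl⟩
    rw [M.g hφ sgn_id, one_mul]
  · intro V E a f v
    unfold G
    have hV : Q.Valid (Function.update a v ((a v).1, 0 ::ₘ (a v).2)) f 2 9 ↔ Q.Valid a f 2 9 := by
      have h1 : ∀ u, (Function.update a v ((a v).1, 0 ::ₘ (a v).2) u).1 = (a u).1 := by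
        intro u
        by_cases h : u = v
        · subst h; simp
        · rw [Function.update_of_ne h]
      have h2 : ∀ u, (Function.update a v ((a v).1, 0 ::ₘ (a v).2) u).2.sum = (a u).2.sum := by
        intro u
        by_cases h : u = v
        · subst h; simp
        · rw [Function.update_of_ne h]
      unfold Q.Valid Q.Stab
      simp only [h1, h2]
    have hr : rz (Function.update a v ((a v).1, 0 ::ₘ (a v).2)) = rz a := by
      funext u
      by_cases h : u = v
      · subst h; simp [rz]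
      · simp [rz, Function.update_of_ne h]
    rw [hV, hr]
    by_cases h : Q.Valid a f 2 9
    swap
    · rw [if_neg h, if_neg h, mul_zero]
    rw [if_pos h, if_pos h, ← mul_assoc]
    congr 1
    have : Finite V := h.1.1
    have := Fintype.ofFinite V
    unfold zfac
    rw [finprod_eq_prod_of_fintype, finprod_eq_prod_of_fintype,
      ← Finset.mul_prod_erase _ _ (Finset.mem_univ v),
      ← Finset.mul_prod_erase _ _ (Finset.mem_univ v), ← mul_assoc]
    congr 1
    · simp only [Function.update_self, Multiset.count_cons_self]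
      have e1 : Multiset.filter (· ≠ 0) (0 ::ₘ (a v).2) = Multiset.filter (· ≠ 0) (a v).2 := by
        simp
      have e2 : (a v).2.card = (Multiset.filter (· ≠ 0) (a v).2).card + (a v).2.count 0 := by
        have h3 := Multiset.filter_add_not (· ≠ 0) (a v).2
        have h4 := congrArg Multiset.card h3
        rw [Multiset.card_add] at h4
        rw [← h4]
        congr 1
        rw [Multiset.count_eq_card_filter_eq]
        congr 1
        apply Multiset.filter_congr
        intro x _
        simp only [ne_eq, not_not]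
        exact eq_comm
      rw [e1, zf_succ, e2]
      push_cast
      ring
    · apply Finset.prod_congr rfl
      intro u hu
      rw [Function.update_of_ne (Finset.ne_of_mem_erase hu)]

end Vale.Agent.P273.D14.H387
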