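import Vale.Agent.P273.D14.H387.Plug5

/-!
The functional `G` on grafted graphs: the values in terms of the graph of the environment.
-/

noncomputable section
namespace Vale.Agent.P273.D14.H387
open Sum Vale.Agent.P273 Vale.Agent.P273.D14.Mv Vale.Agent.P273.D14.H118
open scoped Classical

variable {V E R T L N : Type} {W : Env R T L LL} {i : Bool → Bool → Fin 8} {x : Bool → Bool → L}

lemma card_legs [Finite T] (h2 : H462.Two W.use i x) (Γ : Gr V E L) (w : V)
    (hw : ∀ c, Nat.card {t // (Γ.hf (inr (x c t))).1 = w} = 1) :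
    ∑ l : LL, (if (W.usehf Γ (inr l)).1 = inl w then 1 else 0) = 2 := by
  rw [Fintype.sum_prod_type]
  simp only [Fintype.sum_bool]
  rw [Finset.sum_add_distrib]
  have h1 : ∀ c, ∑ j : Fin 8, (if (W.usehf Γ (inr (j, c))).1 = inl w then 1 else 0) = 1 := by
    intro c
    have h3 := nl_graft h2 Γ c w
    rw [hw c] at h3
    unfold nl at h3
    rw [Nat.card_eq_fintype_card, Fintype.card_subtype, Finset.card_filter] at h3
    exact h3
  rw [h1, h1]

lemma std_card [Fintype L] {ε : L → Fin 2} (hε : ε ∈ Std (x true) (x false)) (w : Fin 2)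
    (c : Bool) : Nat.card {t // ε (x c t) = w} = 1 := by
  simp only [Std, Finset.mem_filter, Finset.mem_univ, true_and] at hε
  have h1 : ∀ t, ε (x c t) = if t then 0 else 1 := by
    intro t
    cases c <;> cases t
    · exact hε.2.2.1
    · exact hε.2.2.2
    · exact hε.1
    · exact hε.2.1
  simp only [h1]
  rw [Nat.card_eq_fintype_card]
  revert w
  decide

lemma card_pos_eq [Fintype T] [Fintype (HH W)] {m : ℕ} (Γ : Gr (Fin 2) (Fin m) L)
    {ε : L → Fin 2} (hpos : ∀ z, (Γ.hf (inr z)).1 = ε z) (w : Fin 2) :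
    (Finset.univ.filter fun y : T × Bool => (W.usehf Γ (inl y)).1 = inl w).card =
      (Finset.univ.filter fun y : HH W => ε (pos W y) = w).card := by
  symm
  refine Finset.card_bij (fun y _ => y.1) ?_ ?_ ?_
  · intro y hy
    rw [Finset.mem_filter] at hy ⊢
    refine ⟨Finset.mem_univ _, ?_⟩
    rw [usehf_fst, use_pos y]
    show inl (Γ.hf (inr (pos W y))).1 = inl w
    rw [hpos, hy.2]
  · intro y _ y' _ h
    exact Subtype.ext h
  · intro y hy
    rw [Finset.mem_filter] at hy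
    have h1 := hy.2
    rw [usehf_fst] at h1
    rcases hz : W.use (inl y) with z | p
    · have h0 : H17.ctr W y = none := by
        unfold H17.ctr
        rw [hz]
        rfl
      have h3 := use_pos (⟨y, h0⟩ : HH W)
      have h4 : W.use (inl y) = inl (pos W ⟨y, h0⟩) := h3
      rw [hz] at h4 h1
      have h6 : (Γ.hf (inr z)).1 = w := inl_injective h1
      refine ⟨⟨y, h0⟩, ?_, rfl⟩
      rw [Finset.mem_filter]
      refine ⟨Finset.mem_univ _, ?_⟩
      rw [← inl_injective h4, ← hpos, h6]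
    · rw [hz] at h1
      cases h1

lemma nv_std [Finite T] [Fintype L] [Fintype (HH W)] (h2 : H462.Two W.use i x) {m : ℕ}
    (Γ : Gr (Fin 2) (Fin m) L) {ε : L → Fin 2}
    (hε : ε ∈ Std (x true) (x false)) (hpos : ∀ z, (Γ.hf (inr z)).1 = ε z) (w : Fin 2) :
    (W.graft Γ).nv (inl w) = ∑ y : Fin m × Bool, (if (Γ.hf (inl y)).1 = w then 1 else 0) +
      (Finset.univ.filter fun y : HH W => ε (pos W y) = w).card + 2 := by
  have := Fintype.ofFinite T
  have e0 : (W.graft Γ).nv (inl w) = ∑ y, if ((W.graft Γ).hf y).1 = inl w then 1 else 0 := by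
    rw [nv_eq_finsum, finsum_eq_sum_of_fintype]
    apply Finset.sum_congr rfl
    intro y _
    congr
  have e3 : ∑ y, (if ((W.graft Γ).hf y).1 = inl w then 1 else 0) =
      ∑ y : Fin m × Bool, (if (Γ.hf (inl y)).1 = w then 1 else 0) +
      ∑ z, if (W.usehf Γ z).1 = inl w then 1 else 0 := by
    rw [Fintype.sum_sum_type, ← Equiv.sum_comp (Equiv.sumProdDistrib (Fin m) T Bool).symm,
      Fintype.sum_sum_type, Fintype.sum_sum_type
        (f := fun z => if (W.usehf Γ z).1 = inl w then 1 else 0), add_assoc]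
    congr 1
    apply Finset.sum_congr rfl
    intro y _
    show (if (inl (Γ.hf (inl y)).1 : Fin 2 ⊕ R) = inl w then 1 else 0) = _
    simp only [inl.injEq]
  have e4 : ∑ l : LL, (if (W.usehf Γ (inr l)).1 = inl w then 1 else 0) = 2 := by
    refine (Finset.sum_congr rfl fun y _ => ?_).trans (card_legs h2 Γ w (fun c => by
      have := std_card hε w c
      simp only [hpos]
      exact this))
    congr
  have e5 : ∑ y : T × Bool, (if (W.usehf Γ (inl y)).1 = inl w then 1 else 0) =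
      (Finset.univ.filter fun y : HH W => ε (pos W y) = w).card := by
    rw [← Finset.card_filter]
    exact card_pos_eq Γ hpos w
  rw [e0, e3, Fintype.sum_sum_type, e4, e5, ← add_assoc]

lemma kk_one [Fintype L] (ε : L → Fin 2) : kk W ε 1 = (sJ (JJ W) ε).card := by
  unfold kk sJ JJ
  rw [Finset.filter_filter]
  congr 1
  ext z
  simp

lemma kk_zero [Fintype L] (ε : L → Fin 2) :
    kk W ε 0 = (JJ W).card - (sJ (JJ W) ε).card := by
  have h0 : kk W ε 0 = ((JJ W).filter fun z => ¬ ε z = 1).card := by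
    unfold kk JJ
    rw [Finset.filter_filter]
    congr 1
    ext z
    have key : ∀ w : Fin 2, w = 0 ↔ ¬ w = 1 := by decide
    simp only [Finset.mem_filter, Finset.mem_univ, true_and, key]
  have h1 := Finset.card_filter_add_card_filter_not (s := JJ W) (fun z => ε z = 1)
  unfold sJ
  omega

lemma sH_zero [Fintype (HH W)] (ε : L → Fin 2) :
    (Finset.univ.filter fun y : HH W => ε (pos W y) = 0) = (sH (pos W) ε)ᶜ := by
  ext y
  have key : ∀ w : Fin 2, w = 0 ↔ ¬ w = 1 := by decide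
  simp only [sH, Finset.mem_filter, Finset.mem_univ, true_and, Finset.mem_compl]
  exact key _

lemma sideD : ∀ w : Fin 2, ∑ y : Fin 2 × Bool,
    (if (if y.1 = 0 then (if y.2 then (1 : Fin 2) else 0) else (if y.2 then 1 else 0)) = w
      then 1 else 0) = 2 := by decide

lemma sideL : ∀ w : Fin 2, ∑ y : Fin 2 × Bool,
    (if (if y.1 = 0 then (if y.2 then (1 : Fin 2) else 1) else (if y.2 then 1 else 0)) = w
      then 1 else 0) = 1 + 2 * w.1 := by decide

lemma std_two [Fintype L] {ε : L → Fin 2} (hε : ε ∈ Std (x true) (x false)) :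
    ∀ w c, ∃ t, ε (x c t) = w := by
  intro w c
  have h1 := std_card hε w c
  obtain ⟨-, ⟨t, ht⟩⟩ := Nat.card_eq_one_iff_unique.1 h1
  exact ⟨t, ht⟩

/-- The value at the double edge. -/
lemma val_db [Fintype L] [Fintype (HH W)] (hE : EOK W)
    (hW : ∀ y z x, W.use y = inl x → W.use z = inl x → y = z) (hb : ∀ x, W.b x = 0)
    (h2 : H462.Two W.use i x) {φ : Und} (hφ : φ.Inv) {ε : L → Fin 2}
    (hε : ε ∈ Std (x true) (x false)) : ph φ W ⟨2, 2, fT4 1 0 1 0 ε⟩ =
      cc W x * (((((sH (pos W) ε).card + 2).ascFactorial (sJ (JJ W) ε).card : ℕ) : ℚ) *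
        ((((sH (pos W) ε)ᶜ.card + 2).ascFactorial ((JJ W).card - (sJ (JJ W) ε).card) : ℕ) : ℚ)) *
        φ _ _ (FS.dbf (H17.ctr W) none (Subtype.val '' (sH (pos W) ε : Set (HH W)))) := by
  have fT := hE.fT
  have n1 : (W.graft (fT4 1 0 1 0 ε)).nv (inl 1) = (sH (pos W) ε).card + 4 := by
    rw [nv_std h2 (fT4 1 0 1 0 ε) hε (fun _ => rfl) 1]
    have := sideD 1
    change 2 + (sH (pos W) ε).card + 2 = _
    omega
  have n0 : (W.graft (fT4 1 0 1 0 ε)).nv (inl 0) = (sH (pos W) ε)ᶜ.card + 4 := by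
    rw [nv_std h2 (fT4 1 0 1 0 ε) hε (fun _ => rfl) 0, sH_zero]
    have := sideD 0
    change 2 + (sH (pos W) ε)ᶜ.card + 2 = _
    omega
  rw [val_T4 hE hW hb h2 (by decide) (std_two hε) φ, n1, n0, kk_one, kk_zero]
  unfold val
  rw [sg_std hW h2 hε, phi_db hφ]
  have z1 : (-2 + (((sH (pos W) ε).card + 4 : ℕ) : ℚ)) = (((sH (pos W) ε).card + 2 : ℕ) : ℚ) := by
    push_cast; ring
  have z0 : (-2 + (((sH (pos W) ε)ᶜ.card + 4 : ℕ) : ℚ)) = (((sH (pos W) ε)ᶜ.card + 2 : ℕ) : ℚ) := by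
    push_cast; ring
  rw [z1, z0, zf_asc, zf_asc]
  ring

/-- The value at the graph with a loop. -/
lemma val_lg [Fintype L] [Fintype (HH W)] (hE : EOK W)
    (hW : ∀ y z x, W.use y = inl x → W.use z = inl x → y = z) (hb : ∀ x, W.b x = 0)
    (h2 : H462.Two W.use i x) {φ : Und} (hφ : φ.Inv) {ε : L → Fin 2}
    (hε : ε ∈ Std (x true) (x false)) : ph φ W ⟨2, 2, fT4 1 1 1 0 ε⟩ =
      cc W x * (((((sH (pos W) ε).card + 3).ascFactorial (sJ (JJ W) ε).card : ℕ) : ℚ) *
        ((((sH (pos W) ε)ᶜ.card + 1).ascFactorial ((JJ W).card - (sJ (JJ W) ε).card) : ℕ) : ℚ)) *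
        φ _ _ (FS.lgf (H17.ctr W) none (Subtype.val '' (sH (pos W) ε : Set (HH W)))) := by
  have fT := hE.fT
  have n1 : (W.graft (fT4 1 1 1 0 ε)).nv (inl 1) = (sH (pos W) ε).card + 5 := by
    rw [nv_std h2 (fT4 1 1 1 0 ε) hε (fun _ => rfl) 1]
    change 3 + (sH (pos W) ε).card + 2 = _
    omega
  have n0 : (W.graft (fT4 1 1 1 0 ε)).nv (inl 0) = (sH (pos W) ε)ᶜ.card + 3 := by
    rw [nv_std h2 (fT4 1 1 1 0 ε) hε (fun _ => rfl) 0, sH_zero]
    change 1 + (sH (pos W) ε)ᶜ.card + 2 = _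
    omega
  rw [val_T4 hE hW hb h2 (by decide) (std_two hε) φ, n1, n0, kk_one, kk_zero]
  unfold val
  rw [sg_std hW h2 hε, phi_lg hφ]
  have z1 : (-2 + (((sH (pos W) ε).card + 5 : ℕ) : ℚ)) = (((sH (pos W) ε).card + 3 : ℕ) : ℚ) := by
    push_cast; ring
  have z0 : (-2 + (((sH (pos W) ε)ᶜ.card + 3 : ℕ) : ℚ)) = (((sH (pos W) ε)ᶜ.card + 1 : ℕ) : ℚ) := by
    push_cast; ring
  rw [z1, z0, zf_asc, zf_asc]
  ring

/-- **The values.** -/
theorem vals [Fintype L] [Fintype (HH W)] {φ : Und} (hφ : φ.Inv) (hbr : φ.Br)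
    (hW : ∀ y z x, W.use y = inl x → W.use z = inl x → y = z) (hb : ∀ x, W.b x = 0)
    (h0 : ∀ r, 0 ∉ (W.dec r).2) (h2 : H462.Two W.use i x) :
    ∃ c : ℚ, (c ≠ 0 → EOK W) ∧ ∀ ε ∈ Std (x true) (x false),
      G φ _ _ (W.graft (fT4 1 0 1 0 ε)).dec (W.graft (fT4 1 0 1 0 ε)).hf =
      c * (((((sH (pos W) ε).card + 2).ascFactorial (sJ (JJ W) ε).card : ℕ) : ℚ) *
        ((((sH (pos W) ε)ᶜ.card + 2).ascFactorial ((JJ W).card - (sJ (JJ W) ε).card) : ℕ) : ℚ)) *
        φ _ _ (FS.dbf (H17.ctr W) none (Subtype.val '' (sH (pos W) ε : Set (HH W)))) ∧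
      G φ _ _ (W.graft (fT4 1 1 1 0 ε)).dec (W.graft (fT4 1 1 1 0 ε)).hf =
      c * (((((sH (pos W) ε).card + 3).ascFactorial (sJ (JJ W) ε).card : ℕ) : ℚ) *
        ((((sH (pos W) ε)ᶜ.card + 1).ascFactorial ((JJ W).card - (sJ (JJ W) ε).card) : ℕ) : ℚ)) *
        φ _ _ (FS.lgf (H17.ctr W) none (Subtype.val '' (sH (pos W) ε : Set (HH W)))) := by
  by_cases hE : EOK W
  · exact ⟨cc W x, fun _ => hE, fun ε hε => ⟨val_db hE hW hb h2 hφ hε, val_lg hE hW hb h2 hφ hε⟩⟩
  · refine ⟨0, fun h => absurd rfl h, fun ε _ => ?_⟩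
    have h3 : ∀ e1 e2, ph φ W ⟨2, 2, fT4 e1 e2 1 0 ε⟩ = 0 := by
      intro e1 e2
      by_contra h
      exact hE (cond_of_ne hφ hbr hW hb h0 h2 1 (by simp [fT4]) rfl (deg_fT4 _ _ _ _ _) h).1
    rw [zero_mul, zero_mul, zero_mul, zero_mul]
    exact ⟨h3 1 0, h3 1 1⟩

end Vale.Agent.P273.D14.H387
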