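import Vale.Agent.P273.D14.H387.GBR
import Vale.Agent.P273.D14.H17.Star

/-!
Separating edges of a tree, and the vertices of genus one outside of a special vertex of genus one.
-/

noncomputable section
namespace Vale.Agent.P273.D14.H387
open Sum Vale.Agent.P273
open scoped Classical

variable {V E R T L : Type} {a : V → ℕ × Multiset ℕ}

/-- Two vertices of a tree are separated by an edge. -/
theorem exists_sep [Finite V] [Finite E] (h : E × Bool → V)
    (hcon : ∀ s : Set V, (∀ e, h (e, true) ∈ s ↔ h (e, false) ∈ s) → s = ∅ ∨ s = Set.univ)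
    (hVE : Nat.card E + 1 = Nat.card V) {v w : V} (hvw : v ≠ w) :
    ∃ (t : E) (b : Bool) (S : Set V), v ∈ S ∧ w ∉ S ∧ h (t, b) ∈ S ∧ h (t, !b) ∉ S ∧
      ∀ e, e ≠ t → (h (e, true) ∈ S ↔ h (e, false) ∈ S) := by
  have := Fintype.ofFinite V
  have := Fintype.ofFinite E
  have two : ∀ x y : ZMod 2, x + y = 0 → (x = 0 ↔ y = 0) := by decide
  have two' : ∀ x y : ZMod 2, x + y = 1 → (x = 0 ∧ y ≠ 0) ∨ (x ≠ 0 ∧ y = 0) := by decide
  let D : (V → ZMod 2) →ₗ[ZMod 2] (E → ZMod 2) × ZMod 2 :=
    { toFun := fun g => (fun e => g (h (e, true)) + g (h (e, false)), g v)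
      map_add' := by
        intro g g'
        refine Prod.ext (funext fun e => ?_) rfl
        show (g (h (e, true)) + g' (h (e, true))) + (g (h (e, false)) + g' (h (e, false))) =
          (g (h (e, true)) + g (h (e, false))) + (g' (h (e, true)) + g' (h (e, false)))
        ring
      map_smul' := by
        intro c g
        refine Prod.ext (funext fun e => ?_) rfl
        show c * g (h (e, true)) + c * g (h (e, false)) = c * (g (h (e, true)) + g (h (e, false)))
        ring }
  have hinj : Function.Injective D := by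
    rw [← LinearMap.ker_eq_bot, LinearMap.ker_eq_bot']
    intro g hg
    have h1 : ∀ e, g (h (e, true)) + g (h (e, false)) = 0 :=
      fun e => congrFun (congrArg Prod.fst hg) e
    have h2 : g v = 0 := congrArg Prod.snd hg
    have h3 := hcon {x | g x = 0} (fun e => two _ _ (h1 e))
    rcases h3 with h3 | h3
    · exfalso
      have : v ∈ {x | g x = 0} := h2
      rw [h3] at this
      exact this
    · funext x
      have : x ∈ {x | g x = 0} := by rw [h3]; trivial
      exact this
  have hsur : Function.Surjective D := by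
    rw [← LinearMap.injective_iff_surjective_of_finrank_eq_finrank]
    · exact hinj
    · rw [Module.finrank_prod, Module.finrank_pi, Module.finrank_pi, Module.finrank_self,
        ← Nat.card_eq_fintype_card, ← Nat.card_eq_fintype_card, hVE]
  choose g hg using fun t : E => hsur (Pi.single t 1, 0)
  have hex : ∃ t, g t w ≠ 0 := by
    by_contra hcon'
    rw [not_exists] at hcon'
    have h1 : (Pi.single w 1 : V → ZMod 2) =
        ∑ t, (D (Pi.single w 1)).1 t • g t := by
      apply hinj
      rw [map_sum]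
      simp only [map_smul, hg]
      refine Prod.ext (funext fun e => ?_) ?_
      · rw [Prod.fst_sum, Finset.sum_apply, Finset.sum_eq_single e]
        · simp
        · intro t _ ht
          simp [Ne.symm ht]
        · simp
      · rw [Prod.snd_sum, Finset.sum_eq_zero]
        · show (Pi.single w 1 : V → ZMod 2) v = 0
          rw [Pi.single_apply, if_neg hvw]
        · intro t _
          simp
    have h2 := congrFun h1 w
    rw [Pi.single_eq_same, Finset.sum_apply, Finset.sum_eq_zero] at h2
    · exact one_ne_zero h2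
    · intro t _
      have : g t w = 0 := not_not.1 (hcon' t)
      simp [this]
  obtain ⟨t, ht⟩ := hex
  have k1 : ∀ e, g t (h (e, true)) + g t (h (e, false)) = (Pi.single t 1 : E → ZMod 2) e :=
    fun e => congrFun (congrArg Prod.fst (hg t)) e
  have k2 : g t v = 0 := congrArg Prod.snd (hg t)
  have k3 := k1 t
  rw [Pi.single_eq_same] at k3
  have k4 : ∀ e, e ≠ t → (h (e, true) ∈ {x | g t x = 0} ↔ h (e, false) ∈ {x | g t x = 0}) := by
    intro e he
    have := k1 e
    rw [Pi.single_apply, if_neg he] at this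
    exact two _ _ this
  rcases two' _ _ k3 with k5 | k5
  · exact ⟨t, true, {x | g t x = 0}, k2, ht, k5.1, k5.2, k4⟩
  · exact ⟨t, false, {x | g t x = 0}, k2, ht, k5.2, k5.1, k4⟩

/-- `G` has the bridge property. -/
theorem BR_G {φ : Und} (hφ : φ.Br) : H17.BR (G φ) := by
  intro V E Γ t b S h1 h2 h3 h4
  obtain ⟨v, b', -, -, h5, h6, h7, -⟩ := br_G hφ h1 h2 h3 h4
  refine ⟨v, h5, congrArg Prod.fst h6, ?_, h7⟩
  rw [← rz_sum, h6]
  rfl

/-- There is no vertex of positive genus outside of an inserted graph of genus one. -/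
theorem no_genus {φ : Und} (hφ : φ.Br) {W : Env R T L LL} {Γ : Gr V E L} (hΓ : Γ.Stab 1)
    (h : Mv.sg (G φ) (W.graft Γ) ≠ 0) (r : R) : (W.dec r).1 = 0 := by
  have hv : Q.Valid (W.graft Γ).dec (W.graft Γ).hf 2 9 := by
    by_contra h3
    exact h (G_invalid h3)
  have hVR : Finite (V ⊕ R) := hv.1.1
  have hET : Finite (E ⊕ T) := hv.1.2.1
  have hV : Finite V := Finite.of_injective (inl : V → V ⊕ R) inl_injective
  have hR : Finite R := Finite.of_injective (inr : R → V ⊕ R) inr_injective
  have hE : Finite E := Finite.of_injective (inl : E → E ⊕ T) inl_injective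
  have hT : Finite T := Finite.of_injective (inr : T → E ⊕ T) inr_injective
  have hgen : ∑ᶠ v, ((W.graft Γ).dec v).1 + Nat.card (E ⊕ T) + 1 = 2 + Nat.card (V ⊕ R) :=
    hv.1.2.2.2.2.1
  have hcon := hv.1.2.2.2.1
  have hVn : Nonempty V := hΓ.1
  have := Fintype.ofFinite V
  have := Fintype.ofFinite R
  have h1 := hΓ.2.2.1
  rw [finsum_eq_sum_of_fintype] at hgen h1
  rw [Fintype.sum_sum_type, Nat.card_sum, Nat.card_sum] at hgen
  have e1 : ∑ v, ((W.graft Γ).dec (inl v)).1 = ∑ v, (Γ.dec v).1 := rfl
  have e2 : ∑ r, ((W.graft Γ).dec (inr r)).1 = ∑ r, (W.dec r).1 := rfl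
  rw [e1, e2] at hgen
  have hc := H17.conn_ctr (G := Γ) hcon
  have hcc := H17.conn_card (H17.ctr W) hc
  rw [Finite.card_option] at hcc
  by_contra hr
  have h2 : (W.dec r).1 ≤ ∑ r, (W.dec r).1 :=
    Finset.single_le_sum (f := fun r => (W.dec r).1) (fun _ _ => Nat.zero_le _) (Finset.mem_univ r)
  have hTR : Nat.card T + 1 = Nat.card (Option R) := by
    rw [Finite.card_option]
    omega
  obtain ⟨t, b, S, s1, s2, s3, s4, s5⟩ := exists_sep (H17.ctr W) hc hTR
    (v := none) (w := some r) (by simp)
  obtain ⟨v, b', -, q2, q3, q4, -, -⟩ := br_G hφ (a := (W.graft Γ).dec) (f := (W.graft Γ).hf)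
    (t := inr t) (b := b)
    (S := {w : V ⊕ R | w.elim (fun _ => none ∈ S) (fun r => some r ∈ S)})
    (by
      rintro (e | e) he
      · exact Iff.rfl
      · exact (H17.ctr_eq Γ (e, true) S).trans ((s5 e (fun h => he (congrArg inr h))).trans
          (H17.ctr_eq Γ (e, false) S).symm))
    ((H17.ctr_eq Γ (t, b) S).2 s3) (fun h => s4 ((H17.ctr_eq Γ (t, !b) S).1 h)) h
  rcases q3 with q3 | q3
  · have hall : ∀ x : V, inl x = v := by
      intro x
      have : inl x ∈ {w : V ⊕ R | w.elim (fun _ => none ∈ S) (fun r => some r ∈ S)} := s1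
      rw [q3] at this
      exact this
    obtain ⟨x⟩ := hVn
    have hx := hall x
    subst hx
    have huniq : ∀ y : V, y = x := fun y => inl_injective (hall y)
    have hcard : Nat.card V = 1 := by
      rw [Nat.card_eq_one_iff_unique]
      exact ⟨⟨fun y z => (huniq y).trans (huniq z).symm⟩, ⟨x⟩⟩
    have hx0 : (Γ.dec x).1 = 0 := congrArg Prod.fst q4
    have hs : ∑ v, (Γ.dec v).1 = 0 := by
      apply Finset.sum_eq_zero
      intro y _
      rw [huniq y, hx0]
    have hE1 : Nat.card E = 1 := by omega
    obtain ⟨e⟩ : Nonempty E := (Nat.card_eq_one_iff_unique.1 hE1).2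
    have := q2 (inl e, true) (congrArg inl (huniq _))
    cases this
  · have : (inr r : V ⊕ R) ∈ {w : V ⊕ R | w.elim (fun _ => none ∈ S) (fun r => some r ∈ S)}ᶜ := s2
    rw [q3, Set.mem_singleton_iff] at this
    subst this
    have h5 := congrArg Prod.fst q4
    exact hr h5

end Vale.Agent.P273.D14.H387
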