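import Vale.Agent.P273.D14.Glue

/-!
The functional `G` on decorated graphs of genus 2, degree 9, with the 16 legs
`A i = (i, true)`, `B i = (i, false)`, `i : Fin 8`, built from a functional `φ` on undecorated
graphs.
-/

noncomputable section
namespace Vale.Agent.P273.D14.H387
open Sum Vale.Agent.P273
open scoped Classical

/-- The legs: `(i, true)` is `A i` and `(i, false)` is `B i`. -/
abbrev LL : Type := Fin 8 × Bool

/-- A functional on undecorated graphs, given by the ends of the half-edges. -/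
abbrev Und : Type 1 := ∀ V E : Type, (E × Bool → V) → ℚ

/-- Isomorphism invariance. -/
def Und.Inv (φ : Und) : Prop := ∀ (V E V' E' : Type) (h : E × Bool → V) (h' : E' × Bool → V')
  (p : V → V') (q : E × Bool → E' × Bool), p.Bijective → q.Bijective →
  (∀ e, (q (e, true)).1 = (q (e, false)).1) → (∀ y, h' (q y) = p (h y)) → φ V E h = φ V' E' h'

variable {V E V' E' L : Type}

/-- The sign of the matching of the `A`-legs with the `B`-legs at the same vertices; `0` if two
`A`-legs (or two `B`-legs) are at the same vertex, or some `A`-leg has no partner. -/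
def sgM (α : LL → V) : ℚ :=
  Matrix.det (Matrix.of fun i j : Fin 8 => if α (i, true) = α (j, false) then (1 : ℚ) else 0)

/-- The value on an undecorated graph with rational vertices only (`h` gives the vertex of each
half-edge and leg). -/
def val (φ : Und) (h : (E × Bool) ⊕ LL → V) : ℚ := sgM (fun x => h (inr x)) * φ V E (fun y => h (inl y))

/-- Add a self-loop at `w`. -/
def lp (h : (E × Bool) ⊕ L → V) (w : V) : (Option E × Bool) ⊕ L → V :=
  Sum.elim (fun y => y.1.elim w fun e => h (inl (e, y.2))) fun x => h (inr x)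

/-- Split the vertex `w`: the half-edges and legs in `S` go to the new vertex `none`, which is
joined to `w` by two new edges. -/
def db (h : (E × Bool) ⊕ L → V) (w : V) (S : Set ((E × Bool) ⊕ L)) :
    ((E ⊕ Bool) × Bool) ⊕ L → Option V :=
  Sum.elim (fun y => y.1.elim (fun e => if inl (e, y.2) ∈ S then none else some (h (inl (e, y.2))))
    fun _ => cond y.2 (some w) none) fun x => if inr x ∈ S then none else some (h (inr x))

/-- All vertices are rational and there are no decorations. -/
def Ty1 (a : V → ℕ × Multiset ℕ) (f : (E × Bool) ⊕ L → V × ℕ) : Prop :=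
  (∀ v, a v = (0, 0)) ∧ ∀ y, (f y).2 = 0

/-- `w` has genus 1, all other vertices are rational, and all decorations are at `w`. -/
def Ty (a : V → ℕ × Multiset ℕ) (f : (E × Bool) ⊕ L → V × ℕ) (w : V) : Prop :=
  (a w).1 = 1 ∧ (∀ v, v ≠ w → a v = (0, 0)) ∧ ∀ y, (f y).2 ≠ 0 → (f y).1 = w

/-- The sets that contain exactly the undecorated legs at `w` and some half-edges at `w`. -/
def Spl (f : (E × Bool) ⊕ L → V × ℕ) (w : V) (S : Set ((E × Bool) ⊕ L)) : Prop :=
  (∀ y ∈ S, (f y).1 = w) ∧ ∀ x, (f (inr x)).1 = w → (inr x ∈ S ↔ (f (inr x)).2 = 0)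

/-- Only legs carry exponents, and these are at most 1. -/
def OnL (f : (E × Bool) ⊕ L → V × ℕ) : Prop := (∀ y, (f (inl y)).2 = 0) ∧ ∀ x, (f (inr x)).2 ≤ 1

/-- The value on a graph without `κ_0`. -/
def G0 (φ : Und) (a : V → ℕ × Multiset ℕ) (f : (E × Bool) ⊕ LL → V × ℕ) : ℚ :=
  (if Ty1 a f then val φ (fun y => (f y).1) else 0) +
  ∑ᶠ (w) (_ : Ty a f w),
    ((if (a w).2 = {1} ∧ ∑ᶠ y, (f y).2 = 0 then
        (Q.nv f w : ℚ) / 24 * val φ (lp (fun y => (f y).1) w) else 0) +
    (if (a w).2 = 0 ∧ ∑ᶠ y, (f y).2 = 1 then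
        1 / 24 * val φ (lp (fun y => (f y).1) w) else 0) +
    (if (a w).2 = 0 ∧ ∑ᶠ y, (f y).2 = 2 ∧ OnL f then
        1 / 24 * ∑ᶠ (S) (_ : Spl f w S), val φ (db (fun y => (f y).1) w S) else 0))

/-- Remove the zeros (the classes `κ_0`). -/
def rz (a : V → ℕ × Multiset ℕ) (v : V) : ℕ × Multiset ℕ := ((a v).1, (a v).2.filter (· ≠ 0))

/-- The factor of `z` classes `κ_0` at a vertex with `2g-2+n+r = x`. -/
def zf (x : ℚ) (z : ℕ) : ℚ := ∏ j ∈ Finset.range z, (x + j)

/-- The product of the factors of the classes `κ_0`. -/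
def zfac (a : V → ℕ × Multiset ℕ) (f : (E × Bool) ⊕ L → V × ℕ) : ℚ :=
  ∏ᶠ v, zf (2 * ((a v).1 : ℚ) - 2 + Q.nv f v + ((a v).2.filter (· ≠ 0)).card) ((a v).2.count 0)

/-- The functional. -/
def G (φ : Und) : Q.Fn LL := fun _ _ a f =>
  if Q.Valid a f 2 9 then zfac a f * G0 φ (rz a) f else 0

end Vale.Agent.P273.D14.H387
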