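import Vale.Agent.P273.D14.H387.GTr

/-!
Support and values of the functional `G`.
-/

noncomputable section
namespace Vale.Agent.P273.D14.H387
open Sum Vale.Agent.P273
open scoped Classical

variable {V E V' E' L : Type} {a : V → ℕ × Multiset ℕ}

lemma sgM_inj {α : LL → V} (h : sgM α ≠ 0) (s : Bool) : (fun i : Fin 8 => α (i, s)).Injective := by
  intro i j hij
  by_contra hne
  apply h
  unfold sgM
  have hij' : α (i, s) = α (j, s) := hij
  cases s
  · apply Matrix.det_zero_of_column_eq hne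
    intro k
    rw [Matrix.of_apply, Matrix.of_apply, hij']
  · apply Matrix.det_zero_of_row_eq hne
    funext k
    rw [Matrix.of_apply, Matrix.of_apply, hij']

lemma card_fib {V : Type} {β : Fin 8 → V} (hβ : β.Injective) (hV : Nat.card V = 8) (v : V) :
    Nat.card {i // β i = v} = 1 := by
  have : Finite V := Nat.finite_of_card_ne_zero (by omega)
  have hb : β.Bijective := hβ.bijective_of_nat_card_le (by rw [hV]; simp)
  obtain ⟨i, hi⟩ := hb.2 v
  rw [Nat.card_eq_one_iff_unique]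
  exact ⟨⟨fun x y => Subtype.ext (hβ (x.2.trans y.2.symm))⟩, ⟨⟨i, hi⟩⟩⟩

lemma Ty.unique {f : (E × Bool) ⊕ L → V × ℕ} {w u : V} (h : Ty a f w) (h' : Ty a f u) : u = w := by
  by_contra hne
  have := h.2.1 u hne
  have h1 := h'.1
  rw [this] at h1
  simp at h1

lemma Ty.not_ty1 {f : (E × Bool) ⊕ L → V × ℕ} {w : V} (h : Ty a f w) : ¬ Ty1 a f := by
  intro h'
  have := h.1
  rw [h'.1] at this
  simp at this

/-- The value at a genus 1 vertex. -/
def brk (φ : Und) (a : V → ℕ × Multiset ℕ) (f : (E × Bool) ⊕ LL → V × ℕ) (w : V) : ℚ :=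
    ((if (a w).2 = {1} ∧ ∑ᶠ y, (f y).2 = 0 then
        (Q.nv f w : ℚ) / 24 * val φ (lp (fun y => (f y).1) w) else 0) +
    (if (a w).2 = 0 ∧ ∑ᶠ y, (f y).2 = 1 then
        1 / 24 * val φ (lp (fun y => (f y).1) w) else 0) +
    (if (a w).2 = 0 ∧ ∑ᶠ y, (f y).2 = 2 ∧ OnL f then
        1 / 24 * ∑ᶠ (S) (_ : Spl f w S), val φ (db (fun y => (f y).1) w S) else 0))

lemma G0_eq (φ : Und) (a : V → ℕ × Multiset ℕ) (f : (E × Bool) ⊕ LL → V × ℕ) :
    G0 φ a f = (if Ty1 a f then val φ (fun y => (f y).1) else 0) +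
      ∑ᶠ (w) (_ : Ty a f w), brk φ a f w := rfl

lemma G0_ty1 {φ : Und} {f : (E × Bool) ⊕ LL → V × ℕ} (h : Ty1 a f) :
    G0 φ a f = val φ (fun y => (f y).1) := by
  rw [G0_eq, if_pos h]
  have : ∑ᶠ (w) (_ : Ty a f w), brk φ a f w = 0 := by
    apply finsum_eq_zero_of_forall_eq_zero
    intro w
    rw [finsum_eq_if, if_neg (fun hw => hw.not_ty1 h)]
  rw [this, add_zero]

lemma G0_ty {φ : Und} {f : (E × Bool) ⊕ LL → V × ℕ} {w : V} (h : Ty a f w) :
    G0 φ a f = brk φ a f w := by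
  rw [G0_eq, if_neg h.not_ty1, zero_add, finsum_eq_single _ w]
  · rw [finsum_eq_if, if_pos h]
  · intro u hu
    rw [finsum_eq_if, if_neg (fun hw => hu (h.unique hw))]

lemma G0_kap {φ : Und} {f : (E × Bool) ⊕ LL → V × ℕ} {w : V} (h : Ty a f w)
    (h1 : (a w).2 = {1}) (h2 : ∑ᶠ y, (f y).2 = 0) :
    G0 φ a f = (Q.nv f w : ℚ) / 24 * val φ (lp (fun y => (f y).1) w) := by
  rw [G0_ty h]
  unfold brk
  rw [if_pos ⟨h1, h2⟩, if_neg, if_neg, add_zero, add_zero]
  · rintro ⟨h3, -⟩
    rw [h1] at h3; simp at h3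
  · rintro ⟨h3, -⟩
    rw [h1] at h3; simp at h3

lemma G0_psi {φ : Und} {f : (E × Bool) ⊕ LL → V × ℕ} {w : V} (h : Ty a f w)
    (h1 : (a w).2 = 0) (h2 : ∑ᶠ y, (f y).2 = 1) :
    G0 φ a f = 1 / 24 * val φ (lp (fun y => (f y).1) w) := by
  rw [G0_ty h]
  unfold brk
  rw [if_neg, if_pos ⟨h1, h2⟩, if_neg, add_zero, zero_add]
  · rintro ⟨-, h3, -⟩
    omega
  · rintro ⟨h3, -⟩
    rw [h1] at h3; simp at h3

lemma G0_db {φ : Und} {f : (E × Bool) ⊕ LL → V × ℕ} {w : V} (h : Ty a f w)
    (h1 : (a w).2 = 0) (h2 : ∑ᶠ y, (f y).2 = 2) (h3 : OnL f) :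
    G0 φ a f = 1 / 24 * ∑ᶠ (S) (_ : Spl f w S), val φ (db (fun y => (f y).1) w S) := by
  rw [G0_ty h]
  unfold brk
  rw [if_neg, if_neg, if_pos ⟨h1, h2, h3⟩, zero_add, zero_add]
  · rintro ⟨-, h4⟩
    omega
  · rintro ⟨h4, -⟩
    rw [h1] at h4; simp at h4

/-- The four types of graphs with a nonzero value. -/
lemma G0_ne {φ : Und} {f : (E × Bool) ⊕ LL → V × ℕ} (h : G0 φ a f ≠ 0) :
    (Ty1 a f ∧ G0 φ a f = val φ (fun y => (f y).1)) ∨ ∃ w, Ty a f w ∧
      (((a w).2 = {1} ∧ ∑ᶠ y, (f y).2 = 0 ∧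
        G0 φ a f = (Q.nv f w : ℚ) / 24 * val φ (lp (fun y => (f y).1) w)) ∨
      ((a w).2 = 0 ∧ ∑ᶠ y, (f y).2 = 1 ∧ G0 φ a f = 1 / 24 * val φ (lp (fun y => (f y).1) w)) ∨
      ((a w).2 = 0 ∧ ∑ᶠ y, (f y).2 = 2 ∧ OnL f ∧
        G0 φ a f = 1 / 24 * ∑ᶠ (S) (_ : Spl f w S), val φ (db (fun y => (f y).1) w S))) := by
  by_cases h1 : Ty1 a f
  · exact Or.inl ⟨h1, G0_ty1 h1⟩
  · right
    have h2 : ∃ w, Ty a f w := by
      by_contra hcon
      rw [not_exists] at hcon
      apply h
      rw [G0_eq, if_neg h1, zero_add]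
      apply finsum_eq_zero_of_forall_eq_zero
      intro w
      rw [finsum_eq_if, if_neg (hcon w)]
    obtain ⟨w, hw⟩ := h2
    refine ⟨w, hw, ?_⟩
    by_cases h3 : (a w).2 = {1} ∧ ∑ᶠ y, (f y).2 = 0
    · exact Or.inl ⟨h3.1, h3.2, G0_kap hw h3.1 h3.2⟩
    by_cases h4 : (a w).2 = 0 ∧ ∑ᶠ y, (f y).2 = 1
    · exact Or.inr (Or.inl ⟨h4.1, h4.2, G0_psi hw h4.1 h4.2⟩)
    by_cases h5 : (a w).2 = 0 ∧ ∑ᶠ y, (f y).2 = 2 ∧ OnL f
    · exact Or.inr (Or.inr ⟨h5.1, h5.2.1, h5.2.2, G0_db hw h5.1 h5.2.1 h5.2.2⟩)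
    exfalso
    apply h
    rw [G0_ty hw]
    unfold brk
    rw [if_neg h3, if_neg h4, if_neg h5]
    ring

lemma G_of_valid {φ : Und} {f : (E × Bool) ⊕ LL → V × ℕ} (h : Q.Valid a f 2 9) :
    G φ V E a f = zfac a f * G0 φ (rz a) f := if_pos h

lemma G_invalid {φ : Und} {f : (E × Bool) ⊕ LL → V × ℕ} (h : ¬ Q.Valid a f 2 9) :
    G φ V E a f = 0 := if_neg h

lemma rz_eq (h : ∀ v, 0 ∉ (a v).2) : rz a = a := by
  funext v
  unfold rz
  rw [Multiset.filter_eq_self.2 (fun x hx h0 => by subst h0; exact h v hx)]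

lemma zfac_eq {f : (E × Bool) ⊕ L → V × ℕ} (h : ∀ v, 0 ∉ (a v).2) : zfac a f = 1 := by
  unfold zfac
  rw [finprod_congr (fun v => by rw [Multiset.count_eq_zero_of_notMem (h v), zf_zero])]
  exact finprod_one

/-- The value on a valid graph without `κ_0`. -/
lemma G_eq {φ : Und} {f : (E × Bool) ⊕ LL → V × ℕ} (h : Q.Valid a f 2 9)
    (h0 : ∀ v, 0 ∉ (a v).2) : G φ V E a f = G0 φ a f := by
  rw [G_of_valid h, zfac_eq h0, rz_eq h0, one_mul]

lemma rz_sum (a : V → ℕ × Multiset ℕ) (v : V) : (rz a v).2.sum = (a v).2.sum := by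
  unfold rz
  have h3 := Multiset.filter_add_not (· ≠ 0) (a v).2
  conv_rhs => rw [← h3]
  rw [Multiset.sum_add]
  have : (Multiset.filter (fun x => ¬ x ≠ 0) (a v).2).sum = 0 := by
    apply Multiset.sum_eq_zero
    intro x hx
    simpa using (Multiset.mem_filter.1 hx).2
  rw [this]
  simp

lemma finsum_single' {M : Type*} [AddCommMonoid M] (F : V → M) (w : V) (h : ∀ v, v ≠ w → F v = 0) :
    ∑ᶠ v, F v = F w := finsum_eq_single F w h

/-- The legs of each colour at `v`. -/
def nl (f : (E × Bool) ⊕ LL → V × ℕ) (s : Bool) (v : V) : ℕ :=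
  Nat.card {i : Fin 8 // (f (inr (i, s))).1 = v}

/-- The degree of the decorations at `v`. -/
def dd (a : V → ℕ × Multiset ℕ) (f : (E × Bool) ⊕ L → V × ℕ) (v : V) : ℕ :=
  (a v).2.sum + ∑ᶠ (y) (_ : (f y).1 = v), (f y).2

lemma dd_zero {f : (E × Bool) ⊕ L → V × ℕ} {v : V} (h : (a v).2.sum = 0)
    (h' : ∀ y, (f y).2 ≠ 0 → (f y).1 ≠ v) : dd a f v = 0 := by
  unfold dd
  rw [h, zero_add]
  apply finsum_eq_zero_of_forall_eq_zero
  intro y
  rw [finsum_eq_if]
  split_ifs with h1
  · by_contra h2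
    exact h' y h2 h1
  · rfl

lemma dd_at {f : (E × Bool) ⊕ L → V × ℕ} {w : V} (h' : ∀ y, (f y).2 ≠ 0 → (f y).1 = w) :
    dd a f w = (a w).2.sum + ∑ᶠ y, (f y).2 := by
  unfold dd
  congr 1
  apply finsum_congr
  intro y
  rw [finsum_eq_if]
  split_ifs with h1
  · rfl
  · by_contra h2
    exact h1 (h' y (fun h => h2 h.symm))

/-- The support of `G`. -/
theorem sp_G {φ : Und} {f : (E × Bool) ⊕ LL → V × ℕ} (h : G φ V E a f ≠ 0) (v : V) :
    1 ≤ nl f true v ∧ nl f false v = nl f true v ∧ dd a f v + 1 = nl f true v + (a v).1 ∧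
      (a v).1 ≤ 1 := by
  have hv : Q.Valid a f 2 9 := by
    by_contra h1
    exact h (G_invalid h1)
  have h0 : G0 φ (rz a) f ≠ 0 := by
    intro h1
    rw [G_of_valid hv, h1, mul_zero] at h
    exact h rfl
  have : Finite V := hv.1.1
  have : Finite E := hv.1.2.1
  have hg : ∑ᶠ v, (a v).1 + Nat.card E + 1 = 2 + Nat.card V := hv.1.2.2.2.2.1
  have hd : Nat.card E + ∑ᶠ v, (a v).2.sum + ∑ᶠ y, (f y).2 = 9 := hv.1.2.2.2.2.2.2
  rcases G0_ne h0 with ⟨h1, h2⟩ | ⟨w, h1, h2⟩
  · -- undecorated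
    have ha : ∀ v, (a v).1 = 0 := fun v => congrArg Prod.fst (h1.1 v)
    have hs : ∀ v, (a v).2.sum = 0 := fun v => by rw [← rz_sum, h1.1 v]; rfl
    have e1 : ∑ᶠ v, (a v).1 = 0 := finsum_eq_zero_of_forall_eq_zero ha
    have e2 : ∑ᶠ v, (a v).2.sum = 0 := finsum_eq_zero_of_forall_eq_zero hs
    have e3 : ∑ᶠ y, (f y).2 = 0 := finsum_eq_zero_of_forall_eq_zero h1.2
    have hV : Nat.card V = 8 := by omega
    have hsg : sgM (fun x => (f (inr x)).1) ≠ 0 := by
      intro h3
      apply h0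
      rw [h2]
      unfold val
      rw [h3, zero_mul]
    have c := fun s => card_fib (sgM_inj hsg s) hV v
    have c1 : nl f true v = 1 := c true
    have c2 : nl f false v = 1 := c false
    have c3 : dd a f v = 0 := dd_zero (hs v) (fun y hy => absurd (h1.2 y) hy)
    rw [c1, c2, c3, ha]
    omega
  · have hgw : (a w).1 = 1 := h1.1
    have hgo : ∀ v, v ≠ w → (a v).1 = 0 := fun v hv => congrArg Prod.fst (h1.2.1 v hv)
    have hso : ∀ v, v ≠ w → (a v).2.sum = 0 := fun v hv => by rw [← rz_sum, h1.2.1 v hv]; rfl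
    have e1 : ∑ᶠ v, (a v).1 = 1 := by rw [finsum_single' _ w hgo, hgw]
    have e2 : ∑ᶠ v, (a v).2.sum = (a w).2.sum := finsum_single' _ w hso
    have key : ∀ (hdw : (a w).2.sum + ∑ᶠ y, (f y).2 = 1)
        (hsg : sgM (fun x => (f (inr x)).1) ≠ 0), 1 ≤ nl f true v ∧ nl f false v = nl f true v ∧
        dd a f v + 1 = nl f true v + (a v).1 ∧ (a v).1 ≤ 1 := by
      intro hdw hsg
      have hV : Nat.card V = 8 := by omega
      have c := fun s => card_fib (sgM_inj hsg s) hV v
      have c1 : nl f true v = 1 := c true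
      have c2 : nl f false v = 1 := c false
      rw [c1, c2]
      by_cases hvw : v = w
      · subst hvw
        rw [dd_at h1.2.2, hdw, hgw]
        omega
      · rw [dd_zero (hso v hvw) (fun y hy h => hvw (h.symm.trans (h1.2.2 y hy))), hgo v hvw]
        omega
    have hval : G0 φ (rz a) f ≠ 0 → ∀ c : ℚ, G0 φ (rz a) f = c * val φ (lp (fun y => (f y).1) w) →
        sgM (fun x => (f (inr x)).1) ≠ 0 := by
      intro h3 c h4 h5
      apply h3
      rw [h4]
      have : val φ (lp (fun y => (f y).1) w) = 0 := by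
        unfold val
        have h6 : (fun x => lp (fun y => (f y).1) w (inr x)) = fun x => (f (inr x)).1 := rfl
        rw [h6, h5, zero_mul]
      rw [this, mul_zero]
    rcases h2 with ⟨h2, h3, h4⟩ | ⟨h2, h3, h4⟩ | ⟨h2, h3, h4, h5⟩
    · apply key _ (hval h0 _ h4)
      rw [← rz_sum, h2, h3]; rfl
    · apply key _ (hval h0 _ h4)
      rw [← rz_sum, h2, h3]; rfl
    · have hsw : (a w).2.sum = 0 := by rw [← rz_sum, h2]; rfl
      have hV : Nat.card V = 7 := by omega
      have hOV : Nat.card (Option V) = 8 := by rw [Finite.card_option, hV]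
      have hex : ∃ S, Spl f w S ∧ sgM (fun x => db (fun y => (f y).1) w S (inr x)) ≠ 0 := by
        by_contra hcon
        apply h0
        rw [h5]
        have : ∑ᶠ (S) (_ : Spl f w S), val φ (db (fun y => (f y).1) w S) = 0 := by
          apply finsum_eq_zero_of_forall_eq_zero
          intro S
          rw [finsum_eq_if]
          split_ifs with hS
          · unfold val
            by_contra h6
            exact hcon ⟨S, hS, fun h7 => h6 (by rw [h7, zero_mul])⟩
          · rfl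
        rw [this, mul_zero]
      obtain ⟨S, hS, hsg⟩ := hex
      have hβ : ∀ s i, db (fun y => (f y).1) w S (inr (i, s)) =
        if inr (i, s) ∈ S then none else some (f (inr (i, s))).1 := fun _ _ => rfl
      have hnl : ∀ s, nl f s v = if v = w then 2 else 1 := by
        intro s
        have hinj := sgM_inj hsg s
        have c1 := card_fib hinj hOV (some v)
        have c2 := card_fib hinj hOV none
        have hsome : ∀ i : Fin 8, db (fun y => (f y).1) w S (inr (i, s)) = some v ↔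
            inr (i, s) ∉ S ∧ (f (inr (i, s))).1 = v := by
          intro i
          rw [hβ]
          split_ifs with h6
          · simp [h6]
          · simp [h6]
        have hnone : ∀ i : Fin 8, db (fun y => (f y).1) w S (inr (i, s)) = none ↔
            inr (i, s) ∈ S := by
          intro i
          rw [hβ]
          split_ifs with h6
          · simp [h6]
          · simp [h6]
        rw [Nat.card_congr (Equiv.subtypeEquivRight hsome)] at c1
        rw [Nat.card_congr (Equiv.subtypeEquivRight hnone)] at c2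
        unfold nl
        rw [Nat.card_eq_fintype_card, Fintype.card_subtype] at c1 c2 ⊢
        split_ifs with hvw
        · have : (Finset.univ.filter fun i : Fin 8 => (f (inr (i, s))).1 = v) =
              (Finset.univ.filter fun i : Fin 8 => inr (i, s) ∉ S ∧ (f (inr (i, s))).1 = v) ∪
              (Finset.univ.filter fun i : Fin 8 => inr (i, s) ∈ S) := by
            ext i
            simp only [Finset.mem_filter, Finset.mem_univ, true_and, Finset.mem_union]
            constructor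
            · intro h6
              by_cases h7 : inr (i, s) ∈ S
              · exact Or.inr h7
              · exact Or.inl ⟨h7, h6⟩
            · rintro (h6 | h6)
              · exact h6.2
              · rw [hvw]; exact hS.1 _ h6
          rw [this, Finset.card_union_of_disjoint, c1, c2]
          rw [Finset.disjoint_filter]
          rintro i - h6 h7
          exact h6.1 h7
        · have : (Finset.univ.filter fun i : Fin 8 => (f (inr (i, s))).1 = v) =
              (Finset.univ.filter fun i : Fin 8 => inr (i, s) ∉ S ∧ (f (inr (i, s))).1 = v) := by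
            ext i
            simp only [Finset.mem_filter, Finset.mem_univ, true_and]
            constructor
            · intro h6
              exact ⟨fun h7 => hvw (h6.symm.trans (hS.1 _ h7)), h6⟩
            · exact fun h6 => h6.2
          rw [this, c1]
      rw [hnl, hnl]
      by_cases hvw : v = w
      · subst hvw
        rw [if_pos rfl, dd_at h1.2.2, hsw, h3, hgw]
        omega
      · rw [if_neg hvw, dd_zero (hso v hvw) (fun y hy h => hvw (h.symm.trans (h1.2.2 y hy))),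
          hgo v hvw]
        omega

end Vale.Agent.P273.D14.H387
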