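import Vale.Agent.P273.D14.H387.G

/-!
Isomorphism invariance and antisymmetry of the functional `G`.
-/

noncomputable section
namespace Vale.Agent.P273.D14.H387
open Sum Vale.Agent.P273
open scoped Classical

variable {V E V' E' L : Type}

lemma sgM_comp {α : LL → V} {p : V → V'} (hp : p.Injective) :
    sgM (fun x => p (α x)) = sgM α := by
  unfold sgM
  simp only [hp.eq_iff]

/-- An isomorphism that permutes the legs. -/
structure Mor (h : (E × Bool) ⊕ L → V) (h' : (E' × Bool) ⊕ L → V') (p : V → V')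
    (q : E × Bool → E' × Bool) (τ : L → L) : Prop where
  hp : p.Bijective
  hq : q.Bijective
  hτ : τ.Bijective
  hs : ∀ e, (q (e, true)).1 = (q (e, false)).1
  hh : ∀ y, h' (y.map q τ) = p (h y)

/-- The sign of a permutation of the legs. -/
def Sgn (τ : LL → LL) (c : ℚ) : Prop := ∀ (V : Type) (α : LL → V), sgM (fun x => α (τ x)) = c * sgM α

lemma sgn_id : Sgn id 1 := fun V α => by rw [one_mul]; rfl

lemma Mor.val {h : (E × Bool) ⊕ LL → V} {h' : (E' × Bool) ⊕ LL → V'} {p : V → V'}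
    {q : E × Bool → E' × Bool} {τ : LL → LL} (M : Mor h h' p q τ) {φ : Und} (hφ : φ.Inv) {c : ℚ}
    (hc : Sgn τ c) : val φ h = c * val φ h' := by
  unfold H387.val
  rw [hφ V E V' E' (fun y => h (inl y)) (fun y => h' (inl y)) p q M.hp M.hq M.hs
    (fun y => M.hh (inl y)), ← mul_assoc, ← hc]
  congr 1
  rw [← sgM_comp M.hp.1]
  congr 1
  funext x
  exact (M.hh (inr x)).symm

/-- Extension of the map of half-edges to a self-loop. -/
def qlp (q : E × Bool → E' × Bool) (y : Option E × Bool) : Option E' × Bool :=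
  y.1.elim (none, y.2) fun e => (some (q (e, y.2)).1, (q (e, y.2)).2)

/-- Extension of the map of half-edges to a double edge. -/
def qdb (q : E × Bool → E' × Bool) (y : (E ⊕ Bool) × Bool) : (E' ⊕ Bool) × Bool :=
  y.1.elim (fun e => (inl (q (e, y.2)).1, (q (e, y.2)).2)) fun b => (inr b, y.2)

lemma qlp_bij {q : E × Bool → E' × Bool} (hq : q.Bijective) : (qlp q).Bijective := by
  constructor
  · rintro ⟨_ | e, s⟩ ⟨_ | e', s'⟩ h
    · simpa [qlp] using h
    · simp [qlp] at h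
    · simp [qlp] at h
    · have h1 : (some (q (e, s)).1, (q (e, s)).2) = (some (q (e', s')).1, (q (e', s')).2) := h
      have h2 : q (e, s) = q (e', s') := by
        rw [Prod.mk.injEq, Option.some.injEq] at h1
        exact Prod.ext h1.1 h1.2
      have h3 := hq.1 h2
      rw [Prod.mk.injEq] at h3
      rw [h3.1, h3.2]
  · rintro ⟨_ | e, s⟩
    · exact ⟨(none, s), rfl⟩
    · obtain ⟨⟨e', s'⟩, h⟩ := hq.2 (e, s)
      refine ⟨(some e', s'), ?_⟩
      show (some (q (e', s')).1, (q (e', s')).2) = _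
      rw [h]

lemma qdb_bij {q : E × Bool → E' × Bool} (hq : q.Bijective) : (qdb q).Bijective := by
  constructor
  · rintro ⟨e | b, s⟩ ⟨e' | b', s'⟩ h
    · have h1 : ((inl (q (e, s)).1 : E' ⊕ Bool), (q (e, s)).2) =
        (inl (q (e', s')).1, (q (e', s')).2) := h
      have h2 : q (e, s) = q (e', s') := by
        rw [Prod.mk.injEq, inl.injEq] at h1
        exact Prod.ext h1.1 h1.2
      have h3 := hq.1 h2
      rw [Prod.mk.injEq] at h3
      rw [h3.1, h3.2]
    · simp [qdb] at h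
    · simp [qdb] at h
    · simpa [qdb] using h
  · rintro ⟨e | b, s⟩
    · obtain ⟨⟨e', s'⟩, h⟩ := hq.2 (e, s)
      refine ⟨(inl e', s'), ?_⟩
      show ((inl (q (e', s')).1 : E' ⊕ Bool), (q (e', s')).2) = _
      rw [h]
    · exact ⟨(inr b, s), rfl⟩

lemma Mor.lp {h : (E × Bool) ⊕ L → V} {h' : (E' × Bool) ⊕ L → V'} {p : V → V'}
    {q : E × Bool → E' × Bool} {τ : L → L} (M : Mor h h' p q τ) (w : V) :
    Mor (lp h w) (lp h' (p w)) p (qlp q) τ where
  hp := M.hp
  hq := qlp_bij M.hq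
  hτ := M.hτ
  hs := by
    rintro (_ | e)
    · rfl
    · exact congrArg some (M.hs e)
  hh := by
    rintro (⟨_ | e, s⟩ | x)
    · rfl
    · exact M.hh (inl (e, s))
    · exact M.hh (inr x)

lemma map_bij {q : E × Bool → E' × Bool} {τ : L → L} (hq : q.Bijective) (hτ : τ.Bijective) :
    (Sum.map q τ).Bijective := ⟨hq.1.sumMap hτ.1, hq.2.sumMap hτ.2⟩

lemma Mor.db {h : (E × Bool) ⊕ L → V} {h' : (E' × Bool) ⊕ L → V'} {p : V → V'}
    {q : E × Bool → E' × Bool} {τ : L → L} (M : Mor h h' p q τ) (w : V)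
    (S : Set ((E × Bool) ⊕ L)) :
    Mor (db h w S) (db h' (p w) (Sum.map q τ '' S)) (Option.map p) (qdb q) τ where
  hp := ⟨Option.map_injective M.hp.1, by
    rintro (_ | v)
    · exact ⟨none, rfl⟩
    · obtain ⟨u, rfl⟩ := M.hp.2 v
      exact ⟨some u, rfl⟩⟩
  hq := qdb_bij M.hq
  hτ := M.hτ
  hs := by
    rintro (e | b)
    · exact congrArg inl (M.hs e)
    · rfl
  hh := by
    have hi := (map_bij M.hq M.hτ).1
    rintro (⟨e | b, s⟩ | x)
    · have h1 : (inl (q (e, s)) : (E' × Bool) ⊕ L) ∈ Sum.map q τ '' S ↔ inl (e, s) ∈ S :=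
        hi.mem_set_image (a := inl (e, s))
      have h2 : h' (inl (q (e, s))) = p (h (inl (e, s))) := M.hh (inl (e, s))
      show (if inl (q (e, s)) ∈ Sum.map q τ '' S then none else some (h' (inl (q (e, s))))) =
        Option.map p (if inl (e, s) ∈ S then none else some (h (inl (e, s))))
      rw [h2]
      by_cases h3 : (inl (e, s) : (E × Bool) ⊕ L) ∈ S
      · rw [if_pos h3, if_pos (h1.2 h3)]; rfl
      · rw [if_neg h3, if_neg (fun h => h3 (h1.1 h))]; rfl
    · cases s <;> rfl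
    · have h1 : (inr (τ x) : (E' × Bool) ⊕ L) ∈ Sum.map q τ '' S ↔ inr x ∈ S :=
        hi.mem_set_image (a := inr x)
      have h2 : h' (inr (τ x)) = p (h (inr x)) := M.hh (inr x)
      show (if inr (τ x) ∈ Sum.map q τ '' S then none else some (h' (inr (τ x)))) =
        Option.map p (if inr x ∈ S then none else some (h (inr x)))
      rw [h2]
      by_cases h3 : (inr x : (E × Bool) ⊕ L) ∈ S
      · rw [if_pos h3, if_pos (h1.2 h3)]; rfl
      · rw [if_neg h3, if_neg (fun h => h3 (h1.1 h))]; rfl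

/-- An isomorphism of decorated graphs that permutes the legs. -/
structure DMor (a : V → ℕ × Multiset ℕ) (f : (E × Bool) ⊕ L → V × ℕ) (a' : V' → ℕ × Multiset ℕ)
    (f' : (E' × Bool) ⊕ L → V' × ℕ) (p : V → V') (q : E × Bool → E' × Bool) (τ : L → L) :
    Prop where
  m : Mor (fun y => (f y).1) (fun y => (f' y).1) p q τ
  ha : ∀ v, a' (p v) = a v
  hn : ∀ y, (f' (y.map q τ)).2 = (f y).2

variable {a : V → ℕ × Multiset ℕ} {f : (E × Bool) ⊕ L → V × ℕ} {a' : V' → ℕ × Multiset ℕ}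
    {f' : (E' × Bool) ⊕ L → V' × ℕ} {p : V → V'} {q : E × Bool → E' × Bool} {τ : L → L}

lemma DMor.forall_y (M : DMor a f a' f' p q τ) {P : (E' × Bool) ⊕ L → Prop} :
    (∀ y, P y) ↔ ∀ y : (E × Bool) ⊕ L, P (y.map q τ) :=
  ⟨fun h y => h _, fun h y => by
    obtain ⟨z, rfl⟩ := (map_bij M.m.hq M.m.hτ).2 y
    exact h z⟩

lemma DMor.fst (M : DMor a f a' f' p q τ) (y : (E × Bool) ⊕ L) :
    (f' (y.map q τ)).1 = p (f y).1 := M.m.hh y

lemma DMor.nv (M : DMor a f a' f' p q τ) (v : V) : Q.nv f' (p v) = Q.nv f v := by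
  unfold Q.nv
  symm
  refine Nat.card_congr (Equiv.subtypeEquiv (Equiv.ofBijective _ (map_bij M.m.hq M.m.hτ)) ?_)
  intro y
  show (f y).1 = v ↔ (f' (y.map q τ)).1 = p v
  rw [M.fst, M.m.hp.1.eq_iff]

lemma DMor.sum (M : DMor a f a' f' p q τ) : ∑ᶠ y, (f' y).2 = ∑ᶠ y, (f y).2 := by
  rw [← finsum_comp_equiv (Equiv.ofBijective _ (map_bij M.m.hq M.m.hτ))]
  exact finsum_congr M.hn

lemma DMor.sum_at (M : DMor a f a' f' p q τ) (v : V) :
    ∑ᶠ (y) (_ : (f' y).1 = p v), (f' y).2 = ∑ᶠ (y) (_ : (f y).1 = v), (f y).2 := by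
  rw [← finsum_comp_equiv (Equiv.ofBijective _ (map_bij M.m.hq M.m.hτ))]
  refine finsum_congr fun y => ?_
  show ∑ᶠ (_ : (f' (y.map q τ)).1 = p v), (f' (y.map q τ)).2 = _
  rw [M.hn, M.fst]
  simp only [M.m.hp.1.eq_iff]

lemma DMor.cardE (M : DMor a f a' f' p q τ) : Nat.card E' = Nat.card E := by
  have h := Nat.card_congr (Equiv.ofBijective q M.m.hq)
  rw [Nat.card_prod, Nat.card_prod] at h
  have : Nat.card Bool = 2 := by simp
  rw [this] at h
  omega

lemma DMor.finE (M : DMor a f a' f' p q τ) : Finite E' ↔ Finite E := by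
  constructor
  · intro h
    have : Finite (E × Bool) := Finite.of_injective q M.m.hq.1
    exact Finite.of_surjective (Prod.fst : E × Bool → E) fun e => ⟨(e, true), rfl⟩
  · intro h
    have : Finite (E' × Bool) := Finite.of_surjective q M.m.hq.2
    exact Finite.of_surjective (Prod.fst : E' × Bool → E') fun e => ⟨(e, true), rfl⟩

lemma DMor.edge (M : DMor a f a' f' p q τ) (T : Set V') :
    (∀ e, (f' (inl (e, true))).1 ∈ T ↔ (f' (inl (e, false))).1 ∈ T) ↔
    ∀ e, (f (inl (e, true))).1 ∈ p ⁻¹' T ↔ (f (inl (e, false))).1 ∈ p ⁻¹' T := by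
  have h0 : ∀ y : E × Bool, (f' (inl (q y))).1 = p (f (inl y)).1 := fun y => M.fst (inl y)
  have h1 : ∀ e s, (q (e, !s)) = ((q (e, s)).1, !(q (e, s)).2) := by
    intro e s
    have h2 : (q (e, !s)).1 = (q (e, s)).1 := by
      cases s
      · exact M.m.hs e
      · exact (M.m.hs e).symm
    refine Prod.ext h2 ?_
    have h3 : q (e, !s) ≠ q (e, s) := fun h => by
      have := M.m.hq.1 h
      simp at this
    have h4 : (q (e, !s)).2 ≠ (q (e, s)).2 := fun h => h3 (Prod.ext h2 h)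
    revert h4
    cases (q (e, !s)).2 <;> cases (q (e, s)).2 <;> simp
  constructor
  · intro h e
    have h5 := h (q (e, true)).1
    have h6 : (f' (inl (q (e, true)))).1 ∈ T ↔ (f' (inl (q (e, false)))).1 ∈ T := by
      have h7 : q (e, false) = ((q (e, true)).1, !(q (e, true)).2) := h1 e true
      rw [h7]
      rcases hq : q (e, true) with ⟨e', s'⟩
      rw [hq] at h5
      cases s'
      · exact h5.symm
      · exact h5
    rw [h0, h0] at h6
    exact h6
  · intro h e'
    obtain ⟨⟨e, s⟩, he⟩ := M.m.hq.2 (e', true)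
    have h7 : q (e, !s) = (e', false) := by
      rw [h1, he]; rfl
    rw [← he, ← h7, h0, h0]
    have h8 := h e
    cases s
    · exact h8.symm
    · exact h8

lemma DMor.stab (M : DMor a f a' f' p q τ) (g d : ℕ) : Q.Stab a' f' g d ↔ Q.Stab a f g d := by
  have e := Equiv.ofBijective p M.m.hp
  have hV : Finite V' ↔ Finite V := ⟨fun h => Finite.of_injective p M.m.hp.1,
    fun h => Finite.of_surjective p M.m.hp.2⟩
  have hN : Nonempty V' ↔ Nonempty V := ⟨fun ⟨v⟩ => by
    obtain ⟨u, -⟩ := M.m.hp.2 v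
    exact ⟨u⟩, fun ⟨v⟩ => ⟨p v⟩⟩
  have hg : ∑ᶠ v, (a' v).1 = ∑ᶠ v, (a v).1 := by
    rw [← finsum_comp_equiv (Equiv.ofBijective p M.m.hp)]
    exact finsum_congr fun v => by rw [Equiv.ofBijective_apply, M.ha]
  have hk : ∑ᶠ v, (a' v).2.sum = ∑ᶠ v, (a v).2.sum := by
    rw [← finsum_comp_equiv (Equiv.ofBijective p M.m.hp)]
    exact finsum_congr fun v => by rw [Equiv.ofBijective_apply, M.ha]
  have hc : Nat.card V' = Nat.card V := (Nat.card_congr (Equiv.ofBijective p M.m.hp)).symm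
  have hcon : (∀ s : Set V', (∀ e, (f' (inl (e, true))).1 ∈ s ↔ (f' (inl (e, false))).1 ∈ s) →
      s = ∅ ∨ s = Set.univ) ↔ ∀ s : Set V, (∀ e, (f (inl (e, true))).1 ∈ s ↔
        (f (inl (e, false))).1 ∈ s) → s = ∅ ∨ s = Set.univ := by
    constructor
    · intro h s hs
      have h1 : p ⁻¹' (p '' s) = s := Set.preimage_image_eq s M.m.hp.1
      have h2 := h (p '' s) ((M.edge _).2 (by rw [h1]; exact hs))
      rcases h2 with h2 | h2
      · left; rw [← h1, h2]; rfl
      · right; rw [← h1, h2]; rfl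
    · intro h s hs
      have h1 : p '' (p ⁻¹' s) = s := Set.image_preimage_eq s M.m.hp.2
      have h2 := h (p ⁻¹' s) ((M.edge _).1 hs)
      rcases h2 with h2 | h2
      · left; rw [← h1, h2]; simp
      · right; rw [← h1, h2, Set.image_univ]; exact M.m.hp.2.range_eq
  have hst : (∀ v, 2 < 2 * (a' v).1 + Q.nv f' v) ↔ ∀ v, 2 < 2 * (a v).1 + Q.nv f v := by
    constructor
    · intro h v
      have := h (p v)
      rwa [M.ha, M.nv] at this
    · intro h v
      obtain ⟨u, rfl⟩ := M.m.hp.2 v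
      rw [M.ha, M.nv]
      exact h u
  unfold Q.Stab
  rw [hV, M.finE, hN, hg, hk, hc, hcon, hst, M.cardE, M.sum]

lemma DMor.valid (M : DMor a f a' f' p q τ) (g d : ℕ) : Q.Valid a' f' g d ↔ Q.Valid a f g d := by
  unfold Q.Valid
  rw [M.stab]
  refine and_congr_right fun _ => ?_
  constructor
  · intro h v
    have := h (p v)
    rwa [M.ha, M.nv, M.sum_at] at this
  · intro h v
    obtain ⟨u, rfl⟩ := M.m.hp.2 v
    rw [M.ha, M.nv, M.sum_at]
    exact h u

end Vale.Agent.P273.D14.H387
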