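import Vale.Agent.P273.D14.H387.Sep
import Vale.Agent.P273.D14.H599.LKA
import Vale.Agent.P273.D14.Move4

/-!
Values of the functional `G` on grafted graphs: the environment.
-/

noncomputable section
namespace Vale.Agent.P273.D14.H387
open Sum Vale.Agent.P273 Vale.Agent.P273.D14.Mv
open scoped Classical

variable {V E R T L N : Type}

lemma zf_asc (n k : ℕ) : zf (n : ℚ) k = (n.ascFactorial k : ℚ) := by
  induction k with
  | zero => simp [zf_zero]
  | succ k ih => rw [zf_succ, ih, Nat.ascFactorial_succ]; push_cast; ring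

/-- `x (x+1) ... (x+k-1)`, the first factor separated. -/
lemma zf_head (x : ℚ) (k : ℕ) : zf x (k + 1) = x * zf (x + 1) k := by
  induction k with
  | zero => simp [zf_zero, zf_succ]
  | succ k ih =>
    rw [zf_succ, ih, zf_succ]
    push_cast
    ring

lemma rz_rz (a : V → ℕ × Multiset ℕ) : rz (rz a) = rz a := by
  funext v
  unfold rz
  simp

lemma rz_zero (a : V → ℕ × Multiset ℕ) (v : V) : 0 ∉ (rz a v).2 := by
  unfold rz
  simp

section
variable {a : V → ℕ × Multiset ℕ}

lemma rz_stab {f : (E × Bool) ⊕ L → V × ℕ} {g d : ℕ} :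
    Q.Stab (rz a) f g d ↔ Q.Stab a f g d := by
  unfold Q.Stab
  simp only [rz_sum]
  exact Iff.rfl

lemma rz_valid {f : (E × Bool) ⊕ L → V × ℕ} {g d : ℕ} :
    Q.Valid (rz a) f g d ↔ Q.Valid a f g d := by
  unfold Q.Valid
  rw [rz_stab]
  simp only [rz_sum]
  exact Iff.rfl

/-- On stable graphs the functional is given by the formula for valid graphs. -/
lemma G_stab {φ : Und} {f : (E × Bool) ⊕ LL → V × ℕ} (h : Q.Stab a f 2 9) :
    G φ V E a f = zfac a f * G0 φ (rz a) f := by
  by_cases hv : Q.Valid a f 2 9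
  · exact G_of_valid hv
  · rw [G_invalid hv, ← H599.G_stab _ (rz_stab.2 h) (fun v => rz_zero a v),
      G_invalid (fun h => hv (rz_valid.1 h)), mul_zero]

end

/-- The environment is good: undecorated rational vertices, and connected of the right size. -/
structure EOK (W : Env R T L LL) : Prop where
  fR : Finite R
  fT : Finite T
  dec : ∀ r, W.dec r = (0, 0)
  exp : ∀ y p, W.use y = inr p → p.2 = 0
  conn : ∀ S : Set (Option R), (∀ t, H17.ctr W (t, true) ∈ S ↔ H17.ctr W (t, false) ∈ S) →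
      S = ∅ ∨ S = Set.univ
  cT : Nat.card T = 7
  cR : Nat.card (Option R) = 7
  st : ∀ r, 3 ≤ W.nR r

lemma eok_of_ne [Finite L] {φ : Und} (hφ : φ.Br) {W : Env R T L LL}
    (hW : ∀ y z x, W.use y = inl x → W.use z = inl x → y = z) (h0 : ∀ r, 0 ∉ (W.dec r).2)
    (hb : ∀ x, W.b x = 0) {Γ : Gr V E L} (hΓ : Γ.Stab 1) (hd : Γ.deg = 2)
    (h : Mv.sg (G φ) (W.graft Γ) ≠ 0) : EOK W := by
  have hv : Q.Valid (W.graft Γ).dec (W.graft Γ).hf 2 9 := by
    by_contra h3
    exact h (G_invalid h3)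
  have hVR : Finite (V ⊕ R) := hv.1.1
  have hET : Finite (E ⊕ T) := hv.1.2.1
  have hV : Finite V := Finite.of_injective (inl : V → V ⊕ R) inl_injective
  have hR : Finite R := Finite.of_injective (inr : R → V ⊕ R) inr_injective
  have hE : Finite E := Finite.of_injective (inl : E → E ⊕ T) inl_injective
  have hT : Finite T := Finite.of_injective (inr : T → E ⊕ T) inr_injective
  have hng := no_genus hφ hΓ h
  have hdec : ∀ r, W.dec r = (0, 0) ∧ ∀ y c, W.use y = inr (r, c) → c = 0 := by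
    have h1 : G0 φ (rz (W.graft Γ).dec) (W.graft Γ).hf ≠ 0 := by
      intro h2
      apply h
      show G φ _ _ (W.graft Γ).dec (W.graft Γ).hf = 0
      rw [G_of_valid hv, h2, mul_zero]
    have key : ∀ r, rz (W.graft Γ).dec (inr r) = (0, 0) → W.dec r = (0, 0) := by
      intro r hr
      rw [← hr]
      unfold rz
      rw [Env.graft_dec_inr, Multiset.filter_eq_self.2
        (fun x hx h2 => by subst h2; exact h0 r hx)]
    intro r
    rcases G0_ne h1 with ⟨h2, -⟩ | ⟨w, h2, -⟩
    · refine ⟨key r (h2.1 _), ?_⟩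
      intro y c hy
      have h3 := h2.2 (lft E y)
      rw [graft_hf_lft, Env.usehf_inr hy] at h3
      exact h3
    · have hw : inr r ≠ w := by
        rintro rfl
        have h3 := h2.1
        have h4 := hng r
        unfold rz at h3
        rw [Env.graft_dec_inr] at h3
        dsimp only at h3
        omega
      refine ⟨key r (h2.2.1 _ hw), ?_⟩
      intro y c hy
      by_contra hc
      have h3 := h2.2.2 (lft E y)
      rw [graft_hf_lft, Env.usehf_inr hy] at h3
      exact hw (h3 hc)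
  have hgen : ∑ᶠ v, ((W.graft Γ).dec v).1 + Nat.card (E ⊕ T) + 1 = 2 + Nat.card (V ⊕ R) :=
    hv.1.2.2.2.2.1
  have := Fintype.ofFinite V
  have := Fintype.ofFinite R
  have h1 := hΓ.2.2.1
  have hVn : Nonempty V := hΓ.1
  rw [finsum_eq_sum_of_fintype] at hgen h1
  rw [Fintype.sum_sum_type, Nat.card_sum, Nat.card_sum] at hgen
  have e1 : ∑ v, ((W.graft Γ).dec (inl v)).1 = ∑ v, (Γ.dec v).1 := rfl
  have e2 : ∑ r, ((W.graft Γ).dec (inr r)).1 = 0 :=
    Finset.sum_eq_zero (fun r _ => by rw [Env.graft_dec_inr, (hdec r).1])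
  rw [e1, e2] at hgen
  have hdg : (W.graft Γ).deg = 9 := ((cValid_iff _ _ _ _).1 hv).2
  rw [deg_graft W hW, hd] at hdg
  have hc : W.cdeg = Nat.card T := by
    unfold Env.cdeg
    have c1 : ∑ᶠ r, (W.dec r).2.sum = 0 :=
      finsum_eq_zero_of_forall_eq_zero (fun r => by rw [(hdec r).1]; rfl)
    have c2 : ∑ᶠ x, W.b x = 0 := finsum_eq_zero_of_forall_eq_zero hb
    have c3 : ∑ᶠ z, (W.use z).elim (fun _ => 0) (·.2) = 0 := by
      apply finsum_eq_zero_of_forall_eq_zero
      intro z
      rcases hz : W.use z with x | ⟨r, c⟩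
      · rfl
      · exact (hdec r).2 z c hz
    rw [c1, c2, c3]
    rfl
  refine ⟨hR, hT, fun r => (hdec r).1, fun y p hy => (hdec p.1).2 y p.2 hy,
    H17.conn_ctr (G := Γ) hv.1.2.2.2.1, by omega, ?_, ?_⟩
  · rw [Finite.card_option]
    omega
  · intro r
    have h3 := hv.1.2.2.2.2.2.1 (inr r)
    rw [Env.graft_dec_inr, (hdec r).1] at h3
    have h4 : Q.nv (W.graft Γ).hf (inr r) = W.nR r := nv_graft_inr W Γ r
    rw [h4] at h3
    dsimp only at h3
    omega

/-- Grafted graphs are stable. -/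
lemma EOK.stab [Finite L] {W : Env R T L LL} (hE : EOK W)
    (hW : ∀ y z x, W.use y = inl x → W.use z = inl x → y = z) (hb : ∀ x, W.b x = 0)
    [Finite V] [Finite E] {Γ : Gr V E L} (hn : Nonempty V)
    (hc : ∀ s : Set V, (∀ e, (Γ.hf (inl (e, true))).1 ∈ s ↔ (Γ.hf (inl (e, false))).1 ∈ s) →
      s = ∅ ∨ s = Set.univ)
    (hg : ∑ᶠ v, (Γ.dec v).1 + Nat.card E + 1 = 1 + Nat.card V) (hd : Γ.deg = 2)
    (hst : ∀ v, 2 < 2 * (Γ.dec v).1 + (W.graft Γ).nv (inl v)) :
    Q.Stab (W.graft Γ).dec (W.graft Γ).hf 2 9 := by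
  obtain ⟨fR, fT, dec, exp, conn, cT, cR, st⟩ := hE
  have := Fintype.ofFinite V
  have := Fintype.ofFinite R
  rw [Finite.card_option] at cR
  refine stab_of_pre ⟨⟨inl hn.some⟩, ?_, ?_, ?_⟩ ?_
  · intro s hs
    have h1 := hc (inl ⁻¹' s) (fun e => hs (inl e))
    have h2 : ∀ v, inl v ∈ s ↔ inl hn.some ∈ s := by
      intro v
      rcases h1 with h1 | h1
      · have k1 : v ∉ inl ⁻¹' s := by rw [h1]; exact id
        have k2 : hn.some ∉ inl ⁻¹' s := by rw [h1]; exact id
        exact iff_of_false k1 k2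
      · have k1 : v ∈ inl ⁻¹' s := by rw [h1]; trivial
        have k2 : hn.some ∈ inl ⁻¹' s := by rw [h1]; trivial
        exact iff_of_true k1 k2
    have h3 : ∀ w : V ⊕ R, w ∈ s ↔ w ∈ {w : V ⊕ R | w.elim
        (fun _ => none ∈ {o : Option R | o.elim (inl hn.some ∈ s) (fun r => inr r ∈ s)})
        (fun r => some r ∈ {o : Option R | o.elim (inl hn.some ∈ s) (fun r => inr r ∈ s)})} := by
      rintro (v | r)
      · exact h2 v
      · exact Iff.rfl
    have h4 := conn {o : Option R | o.elim (inl hn.some ∈ s) (fun r => inr r ∈ s)} (by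
      intro t
      rw [← H17.ctr_eq Γ, ← H17.ctr_eq Γ, ← h3, ← h3]
      exact hs (inr t))
    rcases h4 with h4 | h4
    · left
      ext w
      rw [h3]
      rcases w with v | r
      · have : (none : Option R) ∉ {o : Option R | o.elim (inl hn.some ∈ s) (fun r => inr r ∈ s)} := by
          rw [h4]; exact id
        exact ⟨fun h => this h, fun h => h.elim⟩
      · have : some r ∉ {o : Option R | o.elim (inl hn.some ∈ s) (fun r => inr r ∈ s)} := by
          rw [h4]; exact id
        exact ⟨fun h => this h, fun h => h.elim⟩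
    · right
      ext w
      rw [h3]
      rcases w with v | r
      · have : (none : Option R) ∈ {o : Option R | o.elim (inl hn.some ∈ s) (fun r => inr r ∈ s)} := by
          rw [h4]; trivial
        exact ⟨fun _ => trivial, fun _ => this⟩
      · have : some r ∈ {o : Option R | o.elim (inl hn.some ∈ s) (fun r => inr r ∈ s)} := by
          rw [h4]; trivial
        exact ⟨fun _ => trivial, fun _ => this⟩
  · rw [finsum_eq_sum_of_fintype] at hg ⊢
    rw [Fintype.sum_sum_type, Nat.card_sum, Nat.card_sum]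
    have e1 : ∑ v, ((W.graft Γ).dec (inl v)).1 = ∑ v, (Γ.dec v).1 := rfl
    have e2 : ∑ r, ((W.graft Γ).dec (inr r)).1 = 0 :=
      Finset.sum_eq_zero (fun r _ => by rw [Env.graft_dec_inr, dec])
    rw [e1, e2]
    omega
  · rw [deg_graft W hW, hd]
    unfold Env.cdeg
    have c1 : ∑ᶠ r, (W.dec r).2.sum = 0 :=
      finsum_eq_zero_of_forall_eq_zero (fun r => by rw [dec]; rfl)
    have c2 : ∑ᶠ x, W.b x = 0 := finsum_eq_zero_of_forall_eq_zero hb
    have c3 : ∑ᶠ z, (W.use z).elim (fun _ => 0) (·.2) = 0 := by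
      apply finsum_eq_zero_of_forall_eq_zero
      intro z
      rcases hz : W.use z with x | p
      · rfl
      · exact exp z p hz
    rw [c1, c2, c3, cT]
  · rintro (v | r)
    · rw [Env.graft_dec_inl]
      exact hst v
    · rw [Env.graft_dec_inr, dec, nv_graft_inr]
      have := st r
      dsimp only
      omega

/-- The factors of the classes `κ_0` come from the inserted vertices. -/
lemma zfac_graft [Fintype V] [Finite R] {W : Env R T L LL} (h0 : ∀ r, 0 ∉ (W.dec r).2)
    (Γ : Gr V E L) : zfac (W.graft Γ).dec (W.graft Γ).hf =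
      ∏ v, zf (2 * ((Γ.dec v).1 : ℚ) - 2 + (W.graft Γ).nv (inl v) +
        (((W.graft Γ).dec (inl v)).2.filter (· ≠ 0)).card)
        (((W.graft Γ).dec (inl v)).2.count 0) := by
  have := Fintype.ofFinite R
  unfold zfac
  rw [finprod_eq_prod_of_fintype, Fintype.prod_sum_type]
  have : ∀ r : R, zf (2 * ((((W.graft Γ).dec (inr r)).1 : ℕ) : ℚ) - 2 +
      (Q.nv (W.graft Γ).hf (inr r) : ℚ) +
      ((((W.graft Γ).dec (inr r)).2.filter (· ≠ 0)).card : ℚ))
      (((W.graft Γ).dec (inr r)).2.count 0) = 1 := by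
    intro r
    rw [Env.graft_dec_inr, Multiset.count_eq_zero_of_notMem (h0 r), zf_zero]
  rw [Finset.prod_congr rfl (fun r _ => this r), Finset.prod_const_one, mul_one]
  rfl

end Vale.Agent.P273.D14.H387
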