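import Vale.Agent.P273.D14.H387.Plug1
import Vale.Agent.P273.D14.H118.Ev2
import Vale.Agent.P273.D14.H462.Red

/-!
The functional `G` on grafted graphs at a vertex with two legs of each colour: the general
properties.
-/

noncomputable section
namespace Vale.Agent.P273.D14.H387
open Sum Vale.Agent.P273 Vale.Agent.P273.D14.Mv
open scoped Classical

variable {V E R T L N : Type}

/-- The functional on the graphs that are inserted into the environment. -/
def ph (φ : Und) (W : Env R T L LL) : (Σ k m : ℕ, Gr (Fin k) (Fin m) L) → ℚ :=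
  fun p => Mv.sg (G φ) (W.graft p.2.2)

lemma ph_iso {φ : Und} (hφ : φ.Inv) (W : Env R T L LL) {k m : ℕ} {Γ Γ' : Gr (Fin k) (Fin m) L}
    (h : Γ.Iso Γ') : ph φ W ⟨k, m, Γ⟩ = ph φ W ⟨k, m, Γ'⟩ := by
  obtain ⟨p, q, h1, h2, h3, h4, h5⟩ := h
  exact H17.sg_iso (tr_G hφ) (graft_iso ⟨h1, h2, h3, h4, h5⟩ W)

/-- Exchange of two positions. -/
lemma graft_swp {W : Env R T L N} (hW : ∀ y z x, W.use y = inl x → W.use z = inl x → y = z)
    {i j : N} {x y : L} (hx : W.use (inr i) = inl x) (hy : W.use (inr j) = inl y)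
    (hb : ∀ x, W.b x = 0) (Γ : Gr V E L) (D : DecidableEq N) :
    W.graft (H118.swp x y Γ) =
      ⟨(W.graft Γ).dec, fun z => (W.graft Γ).hf (z.map id (@Equiv.swap N D i j))⟩ := by
  apply Gr.ext'
  · rintro (v | r)
    · rw [Env.graft_dec_inl]
      show ((Γ.dec v).1, (Γ.dec v).2 + W.unused (H118.swp x y Γ) v) = (W.graft Γ).dec (inl v)
      rw [Env.graft_dec_inl]
      congr 2
      unfold Env.unused
      apply finsum_congr
      intro z
      by_cases hz : inl z ∈ Set.range W.use
      · simp [hz]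
      · have h1 : z ≠ x := fun h => hz ⟨_, by rw [h]; exact hx⟩
        have h2 : z ≠ y := fun h => hz ⟨_, by rw [h]; exact hy⟩
        have h3 : (H118.swp x y Γ).hf (inr z) = Γ.hf (inr z) := by
          show Γ.hf (inr (Equiv.swap x y z)) = Γ.hf (inr z)
          rw [Equiv.swap_apply_of_ne_of_ne h1 h2]
        rw [h3]
    · rfl
  · intro z
    rcases graft_cases z with ⟨e, s, rfl⟩ | ⟨z, rfl⟩
    · rfl
    · have key : W.usehf (H118.swp x y Γ) z = W.usehf Γ (z.map id (@Equiv.swap N D i j)) := by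
        have gen : ∀ z', z' ≠ inr i → z' ≠ inr j →
            W.usehf (H118.swp x y Γ) z' = W.usehf Γ z' := by
          intro z' h1 h2
          rcases huz : W.use z' with x' | p
          · rw [Env.usehf_inl huz, Env.usehf_inl huz]
            have h3 : (H118.swp x y Γ).hf (inr x') = Γ.hf (inr x') := by
              show Γ.hf (inr (Equiv.swap x y x')) = Γ.hf (inr x')
              rw [Equiv.swap_apply_of_ne_of_ne]
              · rintro rfl; exact h1 (hW _ _ _ huz hx)
              · rintro rfl; exact h2 (hW _ _ _ huz hy)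
            rw [h3]
          · rw [Env.usehf_inr huz, Env.usehf_inr huz]
        rcases z with z | z
        · exact gen _ (by simp) (by simp)
        · by_cases h1 : z = i
          · subst h1
            show _ = W.usehf Γ (inr (@Equiv.swap N D z j z))
            rw [Equiv.swap_apply_left, Env.usehf_inl hx, Env.usehf_inl hy, hb, hb]
            show (inl (Γ.hf (inr (Equiv.swap x y x))).1, (Γ.hf (inr (Equiv.swap x y x))).2 + 0) = _
            rw [Equiv.swap_apply_left]
          by_cases h2 : z = j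
          · subst h2
            show _ = W.usehf Γ (inr (@Equiv.swap N D i z z))
            rw [Equiv.swap_apply_right, Env.usehf_inl hx, Env.usehf_inl hy, hb, hb]
            show (inl (Γ.hf (inr (Equiv.swap x y y))).1, (Γ.hf (inr (Equiv.swap x y y))).2 + 0) = _
            rw [Equiv.swap_apply_right]
          rw [gen _ (by simpa using h1) (by simpa using h2)]
          show _ = W.usehf Γ (inr (@Equiv.swap N D i j z))
          rw [Equiv.swap_apply_of_ne_of_ne h1 h2]
      rcases z with z | z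
      · exact key
      · exact key

section
variable {W : Env R T L LL} {i : Bool → Bool → Fin 8} {x : Bool → Bool → L}

lemma ph_anti {φ : Und} (hφ : φ.Inv)
    (hW : ∀ y z x, W.use y = inl x → W.use z = inl x → y = z) (hb : ∀ x, W.b x = 0)
    (h2 : H462.Two W.use i x) (c : Bool) {k m : ℕ} (Γ : Gr (Fin k) (Fin m) L) :
    ph φ W ⟨k, m, H118.swp (x c false) (x c true) Γ⟩ = - ph φ W ⟨k, m, Γ⟩ := by
  show Mv.sg (G φ) (W.graft (H118.swp (x c false) (x c true) Γ)) = - Mv.sg (G φ) (W.graft Γ)
  rw [graft_swp hW (h2.pos c false) (h2.pos c true) hb Γ inferInstance]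
  exact anti_G hφ (h2.ne c).symm c _ _ _ _

lemma nl_graft (h2 : H462.Two W.use i x) (Γ : Gr V E L) (c : Bool) (w : V) :
    nl (W.graft Γ).hf c (inl w) = Nat.card {t // (Γ.hf (inr (x c t))).1 = w} := by
  unfold nl
  symm
  refine Nat.card_congr (Equiv.ofBijective (fun t => ⟨i c t.1, ?_⟩) ⟨?_, ?_⟩)
  · rw [Env.graft_hf_leg, Env.usehf_inl (h2.pos c t.1)]
    exact congrArg inl t.2
  · intro t t' h
    have h3 : i c t.1 = i c t'.1 := congrArg Subtype.val h
    apply Subtype.ext
    rcases t with ⟨_ | _, ht⟩ <;> rcases t' with ⟨_ | _, ht'⟩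
    · rfl
    · exact absurd h3.symm (h2.ne c)
    · exact absurd h3 (h2.ne c)
    · rfl
  · rintro ⟨j, hj⟩
    rw [Env.graft_hf_leg] at hj
    by_cases h3 : j = i c true
    · subst h3
      rw [Env.usehf_inl (h2.pos c true)] at hj
      exact ⟨⟨true, inl_injective hj⟩, rfl⟩
    by_cases h4 : j = i c false
    · subst h4
      rw [Env.usehf_inl (h2.pos c false)] at hj
      exact ⟨⟨false, inl_injective hj⟩, rfl⟩
    obtain ⟨p, hp⟩ := h2.rest c j h3 h4
    rw [Env.usehf_inr hp] at hj
    cases hj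

lemma dd_graft [Finite E] [Finite T] [Finite L]
    (hW : ∀ y z x, W.use y = inl x → W.use z = inl x → y = z) (hb : ∀ x, W.b x = 0)
    (Γ : Gr V E L) (w : V) : dd (W.graft Γ).dec (W.graft Γ).hf (inl w) = Γ.degAt w := by
  have h1 := H462.degAt_graft_inl W hW Γ w
  rw [degAt_eq] at h1
  have h3 : ∑ᶠ x, (if (Γ.hf (inr x)).1 = w then W.b x else 0) = 0 := by
    apply finsum_eq_zero_of_forall_eq_zero
    intro x
    rw [hb, ite_self]
  rw [h3, add_zero] at h1
  exact h1

lemma ph_sup [Finite L] {φ : Und}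
    (hW : ∀ y z x, W.use y = inl x → W.use z = inl x → y = z) (hb : ∀ x, W.b x = 0)
    (h2 : H462.Two W.use i x) {k m : ℕ} {Γ : Gr (Fin k) (Fin m) L}
    (h : ph φ W ⟨k, m, Γ⟩ ≠ 0) (w : Fin k) : (∃ t, (Γ.hf (inr (x true t))).1 = w) ∧
      Nat.card {t // (Γ.hf (inr (x true t))).1 = w} =
        Nat.card {t // (Γ.hf (inr (x false t))).1 = w} ∧
      Γ.degAt w + 1 = Nat.card {t // (Γ.hf (inr (x true t))).1 = w} + (Γ.dec w).1 := by
  have hv : Q.Valid (W.graft Γ).dec (W.graft Γ).hf 2 9 := by
    by_contra h3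
    exact h (G_invalid h3)
  have hET : Finite (Fin m ⊕ T) := hv.1.2.1
  have hT : Finite T := Finite.of_injective (inr : T → Fin m ⊕ T) inr_injective
  obtain ⟨h3, h4, h5, -⟩ := sp_G h (inl w)
  rw [nl_graft h2] at h3
  rw [nl_graft h2, nl_graft h2] at h4
  rw [nl_graft h2, dd_graft hW hb] at h5
  refine ⟨?_, h4.symm, h5⟩
  by_contra hcon
  rw [not_exists] at hcon
  have : IsEmpty {t // (Γ.hf (inr (x true t))).1 = w} := ⟨fun t => hcon t.1 t.2⟩
  rw [Nat.card_of_isEmpty] at h3
  exact absurd h3 (by norm_num)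

/-- The general properties. -/
theorem nice_ph [Finite L] {φ : Und} (hφ : φ.Inv)
    (hW : ∀ y z x, W.use y = inl x → W.use z = inl x → y = z) (hb : ∀ x, W.b x = 0)
    (h2 : H462.Two W.use i x) : H118.Nice (x true) (x false) (ph φ W) where
  iso := ph_iso hφ W
  sup := ph_sup hW hb h2
  antiA := ph_anti hφ hW hb h2 true
  antiB := ph_anti hφ hW hb h2 false

end

end Vale.Agent.P273.D14.H387
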