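import Vale.Agent.P273.D14.H387.Plug2

/-!
The functional `G` on grafted graphs: two vertices.
-/

noncomputable section
namespace Vale.Agent.P273.D14.H387
open Sum Vale.Agent.P273 Vale.Agent.P273.D14.Mv Vale.Agent.P273.D14.H118
open scoped Classical

variable {V E R T L N : Type}

/-- The number of forgotten positions at the vertex `w`. -/
def kk [Fintype L] (W : Env R T L N) (ε : L → V) (w : V) : ℕ :=
  (Finset.univ.filter (fun x => inl x ∉ Set.range W.use ∧ ε x = w)).card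

/-- The number of positions at the vertex `w`. -/
def pp [Fintype L] (ε : L → V) (w : V) : ℕ := (Finset.univ.filter fun x => ε x = w).card

lemma unused_eq [Fintype L] (W : Env R T L N) (Γ : Gr V E L) (v : V) :
    W.unused Γ v = ∑ x ∈ Finset.univ.filter (fun x => inl x ∉ Set.range W.use ∧
      (Γ.hf (inr x)).1 = v), {(Γ.hf (inr x)).2 + W.b x} := by
  unfold Env.unused
  rw [finsum_eq_sum_of_fintype, Finset.sum_filter]
  apply Finset.sum_congr rfl
  intro x _
  rw [finsum_eq_if]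

lemma sum_zero (s : Finset L) (c : L → ℕ) (h : ∀ x ∈ s, c x = 0) :
    ∑ x ∈ s, ({c x} : Multiset ℕ) = Multiset.replicate s.card 0 := by
  rw [Finset.sum_congr rfl (fun x hx => by rw [h x hx]), Finset.sum_const,
    Multiset.nsmul_singleton]

lemma unused_zero [Fintype L] {W : Env R T L N} (hb : ∀ x, W.b x = 0) {Γ : Gr V E L} {v : V}
    (h : ∀ x, inl x ∉ Set.range W.use → (Γ.hf (inr x)).1 = v → (Γ.hf (inr x)).2 = 0) :
    W.unused Γ v = Multiset.replicate (kk W (fun x => (Γ.hf (inr x)).1) v) 0 := by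
  rw [unused_eq, sum_zero]
  · rfl
  intro x hx
  rw [Finset.mem_filter] at hx
  rw [h x hx.2.1 hx.2.2, hb]

lemma unused_one [Fintype L] {W : Env R T L N} (hb : ∀ x, W.b x = 0) {Γ : Gr V E L} {v : V}
    {z : L} (hz : inl z ∉ Set.range W.use) (hv : (Γ.hf (inr z)).1 = v)
    (hz1 : (Γ.hf (inr z)).2 = 1) (h : ∀ x, x ≠ z → (Γ.hf (inr x)).2 = 0) :
    ∃ k, kk W (fun x => (Γ.hf (inr x)).1) v = k + 1 ∧
      W.unused Γ v = 1 ::ₘ Multiset.replicate k 0 := by
  have hm : z ∈ Finset.univ.filter (fun x => inl x ∉ Set.range W.use ∧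
      (Γ.hf (inr x)).1 = v) := by
    rw [Finset.mem_filter]
    exact ⟨Finset.mem_univ _, hz, hv⟩
  refine ⟨((Finset.univ.filter (fun x => inl x ∉ Set.range W.use ∧
      (Γ.hf (inr x)).1 = v)).erase z).card, (Finset.card_erase_add_one hm).symm, ?_⟩
  rw [unused_eq, ← Finset.add_sum_erase _ _ hm, hz1, hb, sum_zero]
  · rfl
  · intro x hx
    rw [h x (Finset.ne_of_mem_erase hx), hb]

/-- The ends of the half-edges and legs of a grafted graph. -/
def un (W : Env R T L N) (Γ : Gr V E L) : ((E ⊕ T) × Bool) ⊕ N → V ⊕ R :=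
  fun y => ((W.graft Γ).hf y).1

lemma usehf_fst (W : Env R T L N) (Γ : Gr V E L) (z : (T × Bool) ⊕ N) :
    (W.usehf Γ z).1 = (W.use z).elim (fun x => inl (Γ.hf (inr x)).1) fun p => inr p.1 := by
  rcases hz : W.use z with x | p
  · rw [Env.usehf_inl hz]; rfl
  · rw [Env.usehf_inr hz]; rfl

lemma nv_gen [Fintype L] {m : ℕ} (Γ : Gr (Fin 2) (Fin m) L) (w : Fin 2) :
    Γ.nv w = ∑ y : Fin m × Bool, (if (Γ.hf (inl y)).1 = w then 1 else 0) +
      pp (fun x => (Γ.hf (inr x)).1) w := by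
  rw [nv_eq_finsum, finsum_eq_sum_of_fintype, Fintype.sum_sum_type]
  unfold pp
  rw [Finset.card_filter]
  congr 1
  · apply Finset.sum_congr rfl
    intro y _
    congr

/-- Numbers of half-edges and legs at the vertices of the graft. -/
lemma nv_T [Finite T] [Fintype L] {W : Env R T L LL}
    (hW : ∀ y z x, W.use y = inl x → W.use z = inl x → y = z) {m : ℕ}
    (Γ : Gr (Fin 2) (Fin m) L) (w : Fin 2) :
    (W.graft Γ).nv (inl w) + kk W (fun x => (Γ.hf (inr x)).1) w =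
      ∑ y : Fin m × Bool, (if (Γ.hf (inl y)).1 = w then 1 else 0) +
      pp (fun x => (Γ.hf (inr x)).1) w := by
  rw [← nv_gen, ← nv_graft_add W hW Γ w]
  congr 1
  rw [unused_eq, Multiset.card_sum]
  simp only [Multiset.card_singleton]
  rw [Finset.sum_const, smul_eq_mul, mul_one]
  rfl

section
variable {W : Env R T L LL} {i : Bool → Bool → Fin 8} {x : Bool → Bool → L}

lemma stab_two [Fintype L] (hE : EOK W)
    (hW : ∀ y z x, W.use y = inl x → W.use z = inl x → y = z) (hb : ∀ x, W.b x = 0)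
    (h2 : H462.Two W.use i x) {m : ℕ} (Γ : Gr (Fin 2) (Fin m) L) (e : Fin m)
    (he : (Γ.hf (inl (e, true))).1 ≠ (Γ.hf (inl (e, false))).1)
    (hg : (Γ.dec 0).1 + (Γ.dec 1).1 + m = 2) (hd : Γ.deg = 2)
    (hl : ∀ w c, ∃ t, (Γ.hf (inr (x c t))).1 = w) :
    Q.Stab (W.graft Γ).dec (W.graft Γ).hf 2 9 := by
  have fT := hE.fT
  have hx : ∀ c c' t t', x c t = x c' t' → c = c' ∧ t = t' := by
    intro c c' t t' h
    have h3 := hW _ _ _ (h2.pos c t) (by rw [h]; exact h2.pos c' t')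
    have h4 := congrArg Prod.snd (inr_injective h3)
    have h5 := congrArg Prod.fst (inr_injective h3)
    dsimp only at h4 h5
    subst h4
    refine ⟨rfl, ?_⟩
    have := h2.ne c
    cases t <;> cases t'
    · rfl
    · exact absurd h5.symm this
    · exact absurd h5 this
    · rfl
  have hs := stab2 Γ e he hg (fun w => by
    obtain ⟨t, ht⟩ := hl w true
    obtain ⟨t', ht'⟩ := hl w false
    exact ⟨x true t, x false t', fun h => by simpa using (hx _ _ _ _ h).1, ht, ht'⟩)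
  apply hE.stab hW hb hs.1 hs.2.1 hs.2.2.1 hd
  intro w
  obtain ⟨t, ht⟩ := hl w true
  obtain ⟨t', ht'⟩ := hl w false
  have hside : ∃ b, (Γ.hf (inl (e, b))).1 = w := by
    have key : ∀ p q : Fin 2, p ≠ q → ∀ w, p = w ∨ q = w := by decide
    rcases key _ _ he w with h | h
    · exact ⟨true, h⟩
    · exact ⟨false, h⟩
  obtain ⟨b, hb'⟩ := hside
  have := three_le_nv (W.graft Γ) (inl w) (x := (i true t, true)) (y := (i false t', false))
    (by simp) (inl e, b)
    (by rw [Env.graft_hf_leg, usehf_fst, h2.pos]; exact congrArg inl ht)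
    (by rw [Env.graft_hf_leg, usehf_fst, h2.pos]; exact congrArg inl ht')
    (by rw [Env.graft_hf_inl, hb'])
  omega

/-- The exponents of the graft. -/
lemma exp_graft (hE : EOK W) (hb : ∀ x, W.b x = 0) {Γ : Gr V E L} {P : V ⊕ R → ℕ → Prop}
    (h1 : ∀ y, P (inl (Γ.hf y).1) (Γ.hf y).2) (h3 : ∀ r, P (inr r) 0) (y) :
    P ((W.graft Γ).hf y).1 ((W.graft Γ).hf y).2 := by
  rcases graft_cases y with ⟨e, s, rfl⟩ | ⟨z, rfl⟩
  · rw [Env.graft_hf_inl]
    exact h1 _
  · rw [graft_hf_lft]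
    rcases hz : W.use z with x | p
    · rw [Env.usehf_inl hz, hb]
      exact h1 _
    · rw [Env.usehf_inr hz]
      dsimp only
      rw [hE.exp z p hz]
      exact h3 _

lemma rz_inr (hE : EOK W) (Γ : Gr V E L) (r : R) : rz (W.graft Γ).dec (inr r) = (0, 0) := by
  unfold rz
  rw [Env.graft_dec_inr, hE.dec]
  simp

lemma rz_inl {Γ : Gr V E L} {v : V} {k : ℕ} (hk : (Γ.dec v).2 = 0)
    (h : W.unused Γ v = Multiset.replicate k 0) :
    rz (W.graft Γ).dec (inl v) = ((Γ.dec v).1, 0) ∧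
      ((W.graft Γ).dec (inl v)).2.filter (· ≠ 0) = 0 ∧
      ((W.graft Γ).dec (inl v)).2.count 0 = k := by
  unfold rz
  rw [Env.graft_dec_inl, hk, h]
  dsimp only
  rw [zero_add]
  have h1 : Multiset.filter (· ≠ 0) (Multiset.replicate k 0) = 0 := by
    rw [Multiset.filter_eq_nil]
    intro c hc
    simpa using (Multiset.mem_replicate.1 hc).2
  rw [h1, Multiset.count_replicate_self]
  exact ⟨rfl, rfl, rfl⟩

lemma rz_inl' {Γ : Gr V E L} {v : V} {k : ℕ}
    (h : (Γ.dec v).2 + W.unused Γ v = 1 ::ₘ Multiset.replicate k 0) :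
    rz (W.graft Γ).dec (inl v) = ((Γ.dec v).1, {1}) ∧
      ((W.graft Γ).dec (inl v)).2.filter (· ≠ 0) = {1} ∧
      ((W.graft Γ).dec (inl v)).2.count 0 = k := by
  unfold rz
  rw [Env.graft_dec_inl, h]
  dsimp only
  have h1 : Multiset.filter (· ≠ 0) (1 ::ₘ Multiset.replicate k 0) = {1} := by
    rw [Multiset.filter_cons_of_pos (p := fun c : ℕ => c ≠ 0) _ one_ne_zero]
    have : Multiset.filter (· ≠ 0) (Multiset.replicate k 0) = 0 := by
      rw [Multiset.filter_eq_nil]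
      intro c hc
      simpa using (Multiset.mem_replicate.1 hc).2
    rw [this]
    rfl
  rw [h1, Multiset.count_cons_of_ne zero_ne_one, Multiset.count_replicate_self]
  exact ⟨rfl, rfl, rfl⟩

/-- Two rational vertices. -/
theorem val_T4 [Fintype L] (hE : EOK W)
    (hW : ∀ y z x, W.use y = inl x → W.use z = inl x → y = z) (hb : ∀ x, W.b x = 0)
    (h2 : H462.Two W.use i x) {e1 e2 e3 e4 : Fin 2} (h34 : e3 ≠ e4) {ε : L → Fin 2}
    (hl : ∀ w c, ∃ t, ε (x c t) = w) (φ : Und) : ph φ W ⟨2, 2, fT4 e1 e2 e3 e4 ε⟩ =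
      zf (-2 + (W.graft (fT4 e1 e2 e3 e4 ε)).nv (inl 0)) (kk W ε 0) *
      zf (-2 + (W.graft (fT4 e1 e2 e3 e4 ε)).nv (inl 1)) (kk W ε 1) *
      val φ (un W (fT4 e1 e2 e3 e4 ε)) := by
  have fR := hE.fR
  have fT := hE.fT
  have hst := stab_two hE hW hb h2 (fT4 e1 e2 e3 e4 ε) 1 (by simpa [fT4] using h34)
    rfl (deg_fT4 _ _ _ _ _) hl
  have hu : ∀ w, W.unused (fT4 e1 e2 e3 e4 ε) w = Multiset.replicate (kk W ε w) 0 :=
    fun w => unused_zero hb (fun _ _ _ => rfl)
  have hr : ∀ w, _ := fun w => rz_inl (Γ := fT4 e1 e2 e3 e4 ε) (v := w) rfl (hu w)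
  have h0 : ∀ r, 0 ∉ (W.dec r).2 := fun r => by rw [hE.dec]; simp
  show G φ _ _ _ _ = _
  rw [G_stab hst, G0_ty1, zfac_graft h0, Fin.prod_univ_two, (hr 0).2.1, (hr 0).2.2, (hr 1).2.1,
    (hr 1).2.2]
  · have e0 : ((fT4 e1 e2 e3 e4 ε).dec 0).1 = 0 := rfl
    have e1 : ((fT4 e1 e2 e3 e4 ε).dec 1).1 = 0 := rfl
    rw [e0, e1]
    congr 2
    · congr 1
      simp
    · congr 1
      simp
  · constructor
    · rintro (w | r)
      · exact (hr w).1
      · exact rz_inr hE _ r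
    · intro y
      exact exp_graft hE hb (Γ := fT4 e1 e2 e3 e4 ε) (P := fun _ c => c = 0)
        (by rintro (y | y) <;> rfl) (fun _ => rfl) y

/-- The half-edges of the graph with the self-loop. -/
def q3 (y : Option (Fin 1 ⊕ T) × Bool) : (Fin 2 ⊕ T) × Bool :=
  (y.1.elim (inl 0) (fun e => e.elim (fun _ => inl 1) inr), y.2)

lemma q3_bij : (q3 : _ → (Fin 2 ⊕ T) × Bool).Bijective := by
  constructor
  · rintro ⟨_ | (e | t), s⟩ ⟨_ | (e' | t'), s'⟩ h
    all_goals simp [q3] at h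
    all_goals first | (subst h; rfl) | skip
    · rw [Subsingleton.elim e e', h]
    · rw [h.1, h.2]
  · rintro ⟨e | t, s⟩
    · fin_cases e
      · exact ⟨(none, s), rfl⟩
      · exact ⟨(some (inl 0), s), rfl⟩
    · exact ⟨(some (inr t), s), rfl⟩

lemma lp_T3 {φ : Und} (hφ : φ.Inv) (W : Env R T L LL) (e1 e2 : Fin 2) (ε : L → Fin 2)
    (δ : Option (Bool ⊕ L)) : val φ (lp (un W (fT3 1 e1 e2 ε δ)) (inl 1)) =
      val φ (un W (fT4 1 1 e1 e2 ε)) := by
  have M : Mor (lp (un W (fT3 1 e1 e2 ε δ)) (inl 1)) (un W (fT4 1 1 e1 e2 ε)) id q3 id := by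
    refine ⟨Function.bijective_id, q3_bij, Function.bijective_id, ?_, ?_⟩
    · rintro (_ | (e | t)) <;> rfl
    · have key : ∀ z, ((W.usehf (fT4 1 1 e1 e2 ε) z)).1 = (W.usehf (fT3 1 e1 e2 ε δ) z).1 := by
        intro z
        rw [usehf_fst, usehf_fst]
        rfl
      rintro (⟨_ | (e | t), s⟩ | l)
      · cases s <;> rfl
      · show (inl ((fT4 1 1 e1 e2 ε).hf (inl (1, s))).1 : Fin 2 ⊕ R) =
          inl ((fT3 1 e1 e2 ε δ).hf (inl (e, s))).1
        congr 1
      · exact key (inl (t, s))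
      · exact key (inr l)
  rw [M.val hφ sgn_id, one_mul]

end

end Vale.Agent.P273.D14.H387
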