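import Vale.Agent.P273.D14.H387.Plug3

/-!
The functional `G` on grafted graphs: a vertex of genus one and a rational vertex.
-/

noncomputable section
namespace Vale.Agent.P273.D14.H387
open Sum Vale.Agent.P273 Vale.Agent.P273.D14.Mv Vale.Agent.P273.D14.H118
open scoped Classical

variable {V E R T L N : Type} {W : Env R T L LL} {i : Bool → Bool → Fin 8} {x : Bool → Bool → L}

lemma rz_inl_gen {Γ : Gr V E L} {v : V} {K : Multiset ℕ} {k : ℕ} (hK : ∀ c ∈ K, c ≠ 0)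
    (h : (Γ.dec v).2 + W.unused Γ v = K + Multiset.replicate k 0) :
    rz (W.graft Γ).dec (inl v) = ((Γ.dec v).1, K) ∧
      ((W.graft Γ).dec (inl v)).2.filter (· ≠ 0) = K ∧
      ((W.graft Γ).dec (inl v)).2.count 0 = k := by
  unfold rz
  rw [Env.graft_dec_inl, h]
  dsimp only
  have h1 : Multiset.filter (· ≠ 0) (K + Multiset.replicate k 0) = K := by
    rw [Multiset.filter_add, Multiset.filter_eq_self.2 hK]
    have : Multiset.filter (· ≠ 0) (Multiset.replicate k 0) = 0 := by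
      rw [Multiset.filter_eq_nil]
      intro c hc
      simpa using (Multiset.mem_replicate.1 hc).2
    rw [this, add_zero]
  rw [h1, Multiset.count_add, Multiset.count_replicate_self,
    Multiset.count_eq_zero_of_notMem (fun h => hK 0 h rfl), zero_add]
  exact ⟨rfl, rfl, rfl⟩

/-- One vertex of genus one. -/
theorem val_T3 [Fintype L] (hE : EOK W)
    (hW : ∀ y z x, W.use y = inl x → W.use z = inl x → y = z) (hb : ∀ x, W.b x = 0)
    (h2 : H462.Two W.use i x) {e1 e2 : Fin 2} (h12 : e1 ≠ e2) {ε : L → Fin 2}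
    (hl : ∀ w c, ∃ t, ε (x c t) = w) {φ : Und} (hφ : φ.Inv) {δ : Option (Bool ⊕ L)}
    (hδ : ∀ y, ((fT3 1 e1 e2 ε δ).hf y).2 ≠ 0 → ((fT3 1 e1 e2 ε δ).hf y).1 = 1)
    {K : Multiset ℕ} (hK : K = 0 ∨ K = {1}) {k : ℕ}
    (hd : ((fT3 1 e1 e2 ε δ).dec 1).2 + W.unused (fT3 1 e1 e2 ε δ) 1 =
      K + Multiset.replicate k 0) :
    ph φ W ⟨2, 1, fT3 1 e1 e2 ε δ⟩ =
      zf (-2 + (W.graft (fT3 1 e1 e2 ε δ)).nv (inl 0)) (kk W ε 0) *
      zf ((W.graft (fT3 1 e1 e2 ε δ)).nv (inl 1) + K.card) k *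
      ((if K = 0 then 1 else ((W.graft (fT3 1 e1 e2 ε δ)).nv (inl 1) : ℚ)) / 24 *
        val φ (un W (fT4 1 1 e1 e2 ε))) := by
  have fR := hE.fR
  have fT := hE.fT
  have d0 : (fT3 1 e1 e2 ε δ).dec 0 = (0, 0) := by simp [fT3]
  have d1 : ((fT3 1 e1 e2 ε δ).dec 1).1 = 1 := rfl
  have hst := stab_two hE hW hb h2 (fT3 1 e1 e2 ε δ) 0 (by simpa [fT3] using h12)
    (by rw [d0, d1]) (deg_fT3 _ _ _ _ _) hl
  have hK0 : ∀ c ∈ K, c ≠ 0 := by
    rcases hK with rfl | rfl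
    · simp
    · simp
  have hu0 : W.unused (fT3 1 e1 e2 ε δ) 0 = Multiset.replicate (kk W ε 0) 0 := by
    apply unused_zero hb
    intro z _ hz
    by_contra hne
    rw [hδ (inr z) hne] at hz
    exact absurd hz (by decide)
  have hr0 := rz_inl (Γ := fT3 1 e1 e2 ε δ) (v := 0) (by rw [d0]) hu0
  have hr1 := rz_inl_gen (Γ := fT3 1 e1 e2 ε δ) (v := 1) hK0 hd
  have h0 : ∀ r, 0 ∉ (W.dec r).2 := fun r => by rw [hE.dec]; simp
  have hty : Ty (rz (W.graft (fT3 1 e1 e2 ε δ)).dec) (W.graft (fT3 1 e1 e2 ε δ)).hf (inl 1) := by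
    refine ⟨?_, ?_, ?_⟩
    · rw [hr1.1]
      exact d1
    · rintro (w | r) hw
      · have hw' : w = 0 := by
          have key : ∀ w : Fin 2, w ≠ 1 → w = 0 := by decide
          exact key w (fun h => hw (congrArg inl h))
        subst hw'
        rw [hr0.1, d0]
      · exact rz_inr hE _ r
    · intro y
      exact exp_graft hE hb (Γ := fT3 1 e1 e2 ε δ) (P := fun v c => c ≠ 0 → v = inl 1)
        (fun y hy => congrArg inl (hδ y hy)) (fun r h => absurd rfl h) y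
  have hsum : ∑ᶠ y, ((W.graft (fT3 1 e1 e2 ε δ)).hf y).2 + K.sum = 1 := by
    have h3 := hst.2.2.2.2.2.2
    have h4 : ∑ᶠ v, ((W.graft (fT3 1 e1 e2 ε δ)).dec v).2.sum = K.sum := by
      rw [finsum_single' _ (inl 1)]
      · rw [← rz_sum, hr1.1]
      · intro v hv
        rw [← rz_sum, hty.2.1 v hv]
        rfl
    rw [h4, Nat.card_sum, hE.cT, Nat.card_eq_fintype_card, Fintype.card_fin] at h3
    omega
  have hz : zfac (W.graft (fT3 1 e1 e2 ε δ)).dec (W.graft (fT3 1 e1 e2 ε δ)).hf =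
      zf (-2 + (W.graft (fT3 1 e1 e2 ε δ)).nv (inl 0)) (kk W ε 0) *
      zf ((W.graft (fT3 1 e1 e2 ε δ)).nv (inl 1) + K.card) k := by
    rw [zfac_graft h0, Fin.prod_univ_two, hr0.2.1, hr0.2.2, hr1.2.1, hr1.2.2, d0, d1]
    congr 1
    · congr 1
      simp
    · congr 1
      push_cast
      ring
  show G φ _ _ _ _ = _
  rw [G_stab hst, hz]
  congr 1
  rcases hK with rfl | rfl
  · rw [G0_psi hty (by rw [hr1.1]) (by simpa using hsum), if_pos rfl, ← lp_T3 hφ W e1 e2 ε δ]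
    rfl
  · rw [G0_kap hty (by rw [hr1.1]) (by simpa using hsum), if_neg (by simp),
      ← lp_T3 hφ W e1 e2 ε δ]
    rfl

lemma x_inj (hW : ∀ y z x, W.use y = inl x → W.use z = inl x → y = z)
    (h2 : H462.Two W.use i x) {c c' t t' : Bool} (h : x c t = x c' t') : c = c' ∧ t = t' := by
  have h3 := hW _ _ _ (h2.pos c t) (by rw [h]; exact h2.pos c' t')
  have h4 := congrArg Prod.snd (inr_injective h3)
  have h5 := congrArg Prod.fst (inr_injective h3)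
  dsimp only at h4 h5
  subst h4
  refine ⟨rfl, ?_⟩
  have := h2.ne c
  cases t <;> cases t'
  · rfl
  · exact absurd h5.symm this
  · exact absurd h5 this
  · rfl

/-- A nonzero value gives the conditions. -/
lemma cond_of_ne [Fintype L] {φ : Und} (hφ : φ.Inv) (hbr : φ.Br)
    (hW : ∀ y z x, W.use y = inl x → W.use z = inl x → y = z) (hb : ∀ x, W.b x = 0)
    (h0 : ∀ r, 0 ∉ (W.dec r).2) (h2 : H462.Two W.use i x) {m : ℕ} {Γ : Gr (Fin 2) (Fin m) L}
    (e : Fin m) (he : (Γ.hf (inl (e, true))).1 ≠ (Γ.hf (inl (e, false))).1)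
    (hg : (Γ.dec 0).1 + (Γ.dec 1).1 + m = 2) (hd : Γ.deg = 2) (h : ph φ W ⟨2, m, Γ⟩ ≠ 0) :
    EOK W ∧ ∀ w c, ∃ t, (Γ.hf (inr (x c t))).1 = w := by
  have H := nice_ph hφ hW hb h2
  have hst := H.stab (fun s t h => by simpa using (x_inj hW h2 h).1) h e he hg
  refine ⟨eok_of_ne hbr hW h0 hb hst hd h, ?_⟩
  intro w c
  obtain ⟨⟨t, ht⟩, h4, -⟩ := H.sup h w
  cases c
  · have h5 : Nonempty {t // (Γ.hf (inr (x true t))).1 = w} := ⟨⟨t, ht⟩⟩
    have h6 : 0 < Nat.card {t // (Γ.hf (inr (x true t))).1 = w} := Nat.card_pos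
    rw [h4] at h6
    obtain ⟨⟨t', ht'⟩⟩ := (Nat.card_pos_iff.1 h6).1
    exact ⟨t', ht'⟩
  · exact ⟨t, ht⟩

lemma side3 : ∀ e1 e2 w : Fin 2, e1 ≠ e2 →
    ∑ y : Fin 1 × Bool, (if (if y.2 then e1 else e2) = w then 1 else 0) = 1 := by decide

lemma side4 : ∀ e1 e2 w : Fin 2, e1 ≠ e2 →
    ∑ y : Fin 2 × Bool, (if (if y.1 = 0 then (if y.2 then 1 else 1) else
      (if y.2 then e1 else e2)) = w then 1 else 0) = 1 + 2 * w.1 := by decide

/-- The valences. -/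
lemma nv34 [Finite T] [Fintype L] (hW : ∀ y z x, W.use y = inl x → W.use z = inl x → y = z)
    {e1 e2 : Fin 2} (h12 : e1 ≠ e2) (ε : L → Fin 2) (δ : Option (Bool ⊕ L)) (w : Fin 2) :
    (W.graft (fT3 1 e1 e2 ε δ)).nv (inl w) + kk W ε w = pp ε w + 1 ∧
    (W.graft (fT4 1 1 e1 e2 ε)).nv (inl w) + kk W ε w = pp ε w + 1 + 2 * w.1 := by
  have h1 := nv_T hW (fT3 1 e1 e2 ε δ) w
  have h2 := nv_T hW (fT4 1 1 e1 e2 ε) w
  have h3 := side3 e1 e2 w h12
  have h4 := side4 e1 e2 w h12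
  have k1 : ∑ y : Fin 1 × Bool, (if ((fT3 1 e1 e2 ε δ).hf (inl y)).1 = w then 1 else 0) = 1 := h3
  have k2 : ∑ y : Fin 2 × Bool, (if ((fT4 1 1 e1 e2 ε).hf (inl y)).1 = w then 1 else 0) =
    1 + 2 * w.1 := h4
  rw [k1] at h1
  rw [k2] at h2
  constructor
  · rw [add_comm (pp ε w)]
    exact h1
  · have : pp ε w + 1 + 2 * w.1 = 1 + 2 * w.1 + pp ε w := by ring
    rw [this]
    exact h2

/-- The value at the vertex of genus one in terms of the graph with a loop. -/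
theorem T3_T4 [Fintype L] {φ : Und} (hφ : φ.Inv) (hbr : φ.Br)
    (hW : ∀ y z x, W.use y = inl x → W.use z = inl x → y = z) (hb : ∀ x, W.b x = 0)
    (h0 : ∀ r, 0 ∉ (W.dec r).2) (h2 : H462.Two W.use i x) {e1 e2 : Fin 2} (h12 : e1 ≠ e2)
    (ε : L → Fin 2) (δ : Option (Bool ⊕ L))
    (hδ : ∀ y, ((fT3 1 e1 e2 ε δ).hf y).2 ≠ 0 → ((fT3 1 e1 e2 ε δ).hf y).1 = 1) :
    ph φ W ⟨2, 1, fT3 1 e1 e2 ε δ⟩ = (if δ = none then (pp ε 1 + 1 : ℚ) else 1) / 24 *
      ph φ W ⟨2, 2, fT4 1 1 e1 e2 ε⟩ := by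
  have d0 : (fT3 1 e1 e2 ε δ).dec 0 = (0, 0) := by simp [fT3]
  have d1 : ((fT3 1 e1 e2 ε δ).dec 1).1 = 1 := rfl
  by_cases hc : EOK W ∧ ∀ w c, ∃ t, ε (x c t) = w
  swap
  · have h3 : ph φ W ⟨2, 1, fT3 1 e1 e2 ε δ⟩ = 0 := by
      by_contra h
      exact hc (cond_of_ne hφ hbr hW hb h0 h2 0 (by simpa [fT3] using h12)
        (by rw [d0, d1]) (deg_fT3 _ _ _ _ _) h)
    have h4 : ph φ W ⟨2, 2, fT4 1 1 e1 e2 ε⟩ = 0 := by
      by_contra h
      exact hc (cond_of_ne hφ hbr hW hb h0 h2 1 (by simpa [fT4] using h12)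
        rfl (deg_fT4 _ _ _ _ _) h)
    rw [h3, h4, mul_zero]
  obtain ⟨hE, hl⟩ := hc
  have fT := hE.fT
  rw [val_T4 hE hW hb h2 h12 hl φ]
  obtain ⟨n3, n4⟩ := nv34 hW h12 ε δ 1
  obtain ⟨m3, m4⟩ := nv34 hW h12 ε δ 0
  have hm : (W.graft (fT4 1 1 e1 e2 ε)).nv (inl 0) = (W.graft (fT3 1 e1 e2 ε δ)).nv (inl 0) := by
    have : ((0 : Fin 2) : ℕ) = 0 := rfl
    rw [this] at m4
    omega
  have hn : (W.graft (fT4 1 1 e1 e2 ε)).nv (inl 1) =
      (W.graft (fT3 1 e1 e2 ε δ)).nv (inl 1) + 2 := by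
    have : ((1 : Fin 2) : ℕ) = 1 := rfl
    rw [this] at n4
    omega
  have hp : (pp ε 1 : ℚ) + 1 = (W.graft (fT3 1 e1 e2 ε δ)).nv (inl 1) + kk W ε 1 := by
    exact_mod_cast n3.symm
  rw [hm, hn]
  set n : ℕ := (W.graft (fT3 1 e1 e2 ε δ)).nv (inl 1) with hnn
  have hz : zf (-2 + ((n + 2 : ℕ) : ℚ)) (kk W ε 1) = zf (n : ℚ) (kk W ε 1) := by
    congr 1
    push_cast
    ring
  rw [hz]
  rcases δ with _ | (b | z)
  · -- kappa
    have hu1 : W.unused (fT3 1 e1 e2 ε none) 1 = Multiset.replicate (kk W ε 1) 0 := by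
      apply unused_zero hb
      intro z _ hz
      rfl
    rw [val_T3 hE hW hb h2 h12 hl hφ hδ (Or.inr rfl) (k := kk W ε 1)
      (by rw [hu1]; simp [fT3]), if_neg (by simp), if_pos rfl, hp]
    have h5 := zf_head (n : ℚ) (kk W ε 1)
    rw [zf_succ] at h5
    rw [Multiset.card_singleton, Nat.cast_one, ← hnn]
    linear_combination (-(zf (-2 + ((W.graft (fT3 1 e1 e2 ε none)).nv (inl 0) : ℚ)) (kk W ε 0) *
      val φ (un W (fT4 1 1 e1 e2 ε)) / 24)) * h5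
  · -- psi at the edge
    have hu1 : W.unused (fT3 1 e1 e2 ε (some (inl b))) 1 = Multiset.replicate (kk W ε 1) 0 := by
      apply unused_zero hb
      intro z _ hz
      simp [fT3]
    rw [val_T3 hE hW hb h2 h12 hl hφ hδ (Or.inl rfl) (k := kk W ε 1)
      (by rw [hu1]; simp [fT3]), if_pos rfl, if_neg (by simp), Multiset.card_zero, Nat.cast_zero,
      add_zero]
    ring
  · by_cases hz : inl z ∈ Set.range W.use
    · have hu1 : W.unused (fT3 1 e1 e2 ε (some (inr z))) 1 =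
          Multiset.replicate (kk W ε 1) 0 := by
        apply unused_zero hb
        intro z' hz' _
        have : z ≠ z' := fun h => hz' (h ▸ hz)
        simp [fT3, this]
      rw [val_T3 hE hW hb h2 h12 hl hφ hδ (Or.inl rfl) (k := kk W ε 1)
        (by rw [hu1]; simp [fT3]), if_pos rfl, if_neg (by simp), Multiset.card_zero,
        Nat.cast_zero, add_zero]
      ring
    · have hz1 : ε z = 1 := hδ (inr z) (by simp [fT3])
      obtain ⟨k, hk, hu1⟩ := unused_one hb (Γ := fT3 1 e1 e2 ε (some (inr z))) (v := 1) hz hz1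
        (by simp [fT3]) (by
          intro z' hz'
          simp [fT3, Ne.symm hz'])
      have hk' : kk W ε 1 = k + 1 := hk
      rw [val_T3 hE hW hb h2 h12 hl hφ hδ (Or.inr rfl) (k := k)
        (by rw [hu1]; simp [fT3]), if_neg (by simp), if_neg (by simp),
        Multiset.card_singleton, Nat.cast_one, hk', zf_head, ← hnn]
      ring

end Vale.Agent.P273.D14.H387
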