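import Vale.Agent.P273.D14.H387.Plug4
import Vale.Agent.P273.D14.H118.Pos
import Vale.Agent.P273.D14.H66.Getz

/-!
The functional `G` on grafted graphs: the values in terms of the graph of the environment.
-/

noncomputable section
namespace Vale.Agent.P273.D14.H387
open Sum Vale.Agent.P273 Vale.Agent.P273.D14.Mv Vale.Agent.P273.D14.H118
open scoped Classical

variable {V E R T L N : Type} {W : Env R T L LL} {i : Bool → Bool → Fin 8} {x : Bool → Bool → L}

/-- The sign of the environment. -/
def cc (W : Env R T L LL) (x : Bool → Bool → L) : ℚ :=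
  sgM (fun l => (W.use (inr l)).elim (fun z =>
    inl (if z = x true false ∨ z = x false false then 1 else 0)) (fun p => inr p.1) : LL → Fin 2 ⊕ R)

lemma legs_std [Fintype L] (hW : ∀ y z x, W.use y = inl x → W.use z = inl x → y = z)
    (h2 : H462.Two W.use i x) {ε : L → Fin 2} (hε : ε ∈ Std (x true) (x false)) (l : LL) :
    (W.use (inr l)).elim (fun z => (inl (ε z) : Fin 2 ⊕ R)) (fun p => inr p.1) =
    (W.use (inr l)).elim (fun z =>
      inl (if z = x true false ∨ z = x false false then 1 else 0)) (fun p => inr p.1) := by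
  simp only [Std, Finset.mem_filter, Finset.mem_univ, true_and] at hε
  rcases hl : W.use (inr l) with z | p
  · have hz : ∃ c t, z = x c t := by
      obtain ⟨j, c⟩ := l
      by_cases h3 : j = i c true
      · subst h3
        rw [h2.pos] at hl
        exact ⟨c, true, (inl_injective hl).symm⟩
      by_cases h4 : j = i c false
      · subst h4
        rw [h2.pos] at hl
        exact ⟨c, false, (inl_injective hl).symm⟩
      obtain ⟨p, hp⟩ := h2.rest c j h3 h4
      rw [hp] at hl
      cases hl
    obtain ⟨c, t, rfl⟩ := hz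
    show (inl (ε (x c t)) : Fin 2 ⊕ R) = inl _
    congr 1
    cases t
    · rw [if_pos (by cases c; exact Or.inr rfl; exact Or.inl rfl)]
      cases c
      · exact hε.2.2.1
      · exact hε.1
    · rw [if_neg]
      · cases c
        · exact hε.2.2.2
        · exact hε.2.1
      · rintro (h | h)
        · exact absurd (x_inj hW h2 h).2 (by simp)
        · exact absurd (x_inj hW h2 h).2 (by simp)
  · rfl

lemma sg_std [Fintype L] (hW : ∀ y z x, W.use y = inl x → W.use z = inl x → y = z)
    (h2 : H462.Two W.use i x) {ε : L → Fin 2} (hε : ε ∈ Std (x true) (x false))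
    (e1 e2 e3 e4 : Fin 2) : sgM (fun l => un W (fT4 e1 e2 e3 e4 ε) (inr l)) = cc W x := by
  unfold cc
  congr 1
  funext l
  rw [← legs_std hW h2 hε l]
  show ((W.graft (fT4 e1 e2 e3 e4 ε)).hf (inr l)).1 = _
  rw [Env.graft_hf_leg, usehf_fst]
  rfl

/-- The vertices of the split graph. -/
def p4 (v : Fin 2 ⊕ R) : Option (Option R) :=
  v.elim (fun w => if w = 1 then none else some none) fun r => some (some r)

lemma p4_bij : (p4 : Fin 2 ⊕ R → _).Bijective := by
  constructor
  · rintro (w | r) (w' | r') h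
    · have key : ∀ w w' : Fin 2, (w = 1 ↔ w' = 1) → w = w' := by decide
      congr 1
      apply key
      simp only [p4, elim_inl] at h
      split_ifs at h with h1 h2 h2
      · exact iff_of_true h1 h2
      · exact iff_of_false h1 h2
    · simp only [p4, elim_inl, elim_inr] at h
      split_ifs at h
      simp at h
    · simp only [p4, elim_inl, elim_inr] at h
      split_ifs at h
      simp at h
    · simpa [p4] using h
  · rintro (_ | _ | r)
    · exact ⟨inl 1, rfl⟩
    · exact ⟨inl 0, rfl⟩
    · exact ⟨inr r, rfl⟩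

/-- The half-edges of the split graph. -/
def q4 (y : (Fin 2 ⊕ T) × Bool) : (T ⊕ Bool) × Bool :=
  y.1.elim (fun e => (inr (decide (e = 0)), !y.2)) fun t => (inl t, y.2)

lemma q4_bij : (q4 : (Fin 2 ⊕ T) × Bool → _).Bijective := by
  constructor
  · rintro ⟨e | t, s⟩ ⟨e' | t', s'⟩ h
    · simp only [q4, elim_inl, Prod.mk.injEq, inr.injEq, Bool.not_eq_eq_eq_not, Bool.not_not] at h
      have key : ∀ e e' : Fin 2, decide (e = 0) = decide (e' = 0) → e = e' := by decide
      rw [key _ _ h.1, h.2]
    · simp [q4] at h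
    · simp [q4] at h
    · simpa [q4] using h
  · rintro ⟨t | b, s⟩
    · exact ⟨(inr t, s), rfl⟩
    · cases b
      · exact ⟨(inl 1, !s), by simp [q4]⟩
      · exact ⟨(inl 0, !s), by simp [q4]⟩

lemma mem_sH [Fintype (HH W)] (ε : L → Fin 2) (y : T × Bool) :
    y ∈ Subtype.val '' (sH (pos W) ε : Set (HH W)) ↔ ∃ z, W.use (inl y) = inl z ∧ ε z = 1 := by
  constructor
  · rintro ⟨y, hy, rfl⟩
    refine ⟨pos W y, use_pos y, ?_⟩
    simpa [sH] using hy
  · rintro ⟨z, hz, h1⟩
    have h0 : H17.ctr W y = none := by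
      unfold H17.ctr
      rw [hz]
      rfl
    refine ⟨⟨y, h0⟩, ?_, rfl⟩
    have h3 := use_pos (⟨y, h0⟩ : HH W)
    have h4 : W.use (inl y) = inl (pos W ⟨y, h0⟩) := h3
    rw [hz] at h4
    simp only [sH, Finset.coe_filter, Finset.mem_univ, true_and, Set.mem_ofPred_eq]
    rw [← inl_injective h4]
    exact h1

lemma ends_T [Fintype (HH W)] (e1 e2 e3 e4 : Fin 2) (ε : L → Fin 2) (y : T × Bool) :
    (if y ∈ Subtype.val '' (sH (pos W) ε : Set (HH W)) then none
      else some (H17.ctr W y) : Option (Option R)) =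
      p4 (un W (fT4 e1 e2 e3 e4 ε) (inl (inr y.1, y.2))) := by
  show _ = p4 ((W.graft (fT4 e1 e2 e3 e4 ε)).hf (lft (Fin 2) (inl y))).1
  rw [graft_hf_lft, usehf_fst, mem_sH]
  unfold H17.ctr
  rcases hz : W.use (inl y) with z | p
  · show _ = if ε z = 1 then none else some none
    by_cases h1 : ε z = 1
    · rw [if_pos ⟨z, rfl, h1⟩, if_pos h1]
    · rw [if_neg, if_neg h1]
      · rfl
      · rintro ⟨z', h3, h4⟩
        rw [← inl_injective h3] at h4
        exact h1 h4
  · rw [if_neg]
    · rfl
    · rintro ⟨z', h3, -⟩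
      cases h3

lemma phi_db {φ : Und} (hφ : φ.Inv) [Fintype (HH W)] (ε : L → Fin 2) :
    φ _ _ (fun y => un W (fT4 1 0 1 0 ε) (inl y)) =
      φ _ _ (FS.dbf (H17.ctr W) none (Subtype.val '' (sH (pos W) ε : Set (HH W)))) := by
  apply hφ _ _ _ _ _ _ p4 q4 p4_bij q4_bij
  · rintro (e | t) <;> rfl
  · rintro ⟨e | t, s⟩
    · have key : ∀ e : Fin 2, ∀ s : Bool,
        (cond (!s) (some none) none : Option (Option R)) =
          (if (if e = 0 then (if s then (1 : Fin 2) else 0) else (if s then 1 else 0)) = 1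
            then none else some none) := by
        intro e s
        cases s <;> simp
      exact key e s
    · exact ends_T 1 0 1 0 ε (t, s)

lemma phi_lg {φ : Und} (hφ : φ.Inv) [Fintype (HH W)] (ε : L → Fin 2) :
    φ _ _ (fun y => un W (fT4 1 1 1 0 ε) (inl y)) =
      φ _ _ (FS.lgf (H17.ctr W) none (Subtype.val '' (sH (pos W) ε : Set (HH W)))) := by
  apply hφ _ _ _ _ _ _ p4 q4 p4_bij q4_bij
  · rintro (e | t) <;> rfl
  · rintro ⟨e | t, s⟩
    · have key : ∀ e : Fin 2, ∀ s : Bool,
        (cond (decide (e = 0)) none (cond (!s) (some none) none) : Option (Option R)) =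
          (if (if e = 0 then (if s then (1 : Fin 2) else 1) else (if s then 1 else 0)) = 1
            then none else some none) := by
        intro e s
        fin_cases e <;> cases s <;> simp
      exact key e s
    · exact ends_T 1 1 1 0 ε (t, s)

end Vale.Agent.P273.D14.H387
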