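import Vale.Agent.P273.D14.H387.Plug6
import Vale.Agent.P273.D14.H118.RelSum

/-!
The functional `G` on grafted graphs: one vertex of genus one with two psi classes.
-/

noncomputable section
namespace Vale.Agent.P273.D14.H387
open Sum Vale.Agent.P273 Vale.Agent.P273.D14.Mv Vale.Agent.P273.D14.H118
open scoped Classical

variable {V E R T L N : Type} {W : Env R T L LL} {i : Bool → Bool → Fin 8} {x : Bool → Bool → L}

/-- The vertex of genus one. -/
abbrev g1 (x : Bool → Bool → L) : Gr (Fin 1) (Fin 0) L :=
  pt1 1 0 (ex2 (x true true) (x false true))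

/-- The set of half-edges and legs that go to the new vertex. -/
def kS (W : Env R T L LL) (i : Bool → Bool → Fin 8) (S : Finset (HH W)) :
    Set (((Fin 0 ⊕ T) × Bool) ⊕ LL) :=
  {y | y.elim (fun p => p.1.elim (fun _ => False)
    (fun t => (t, p.2) ∈ Subtype.val '' (S : Set (HH W))))
    (fun l => l = (i true false, true) ∨ l = (i false false, false))}

lemma mem_kS_T {S : Finset (HH W)} {t : T} {s : Bool} :
    (inl (inr t, s) : ((Fin 0 ⊕ T) × Bool) ⊕ LL) ∈ kS W i S ↔
      (t, s) ∈ Subtype.val '' (S : Set (HH W)) := Iff.rfl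

lemma mem_kS_leg {S : Finset (HH W)} {l : LL} :
    (inr l : ((Fin 0 ⊕ T) × Bool) ⊕ LL) ∈ kS W i S ↔
      l = (i true false, true) ∨ l = (i false false, false) := Iff.rfl

lemma kS_inj : (kS W i).Injective := by
  intro S S' h
  ext y
  have h1 : (inl (inr y.1.1, y.1.2) : ((Fin 0 ⊕ T) × Bool) ⊕ LL) ∈ kS W i S ↔
      (inl (inr y.1.1, y.1.2) : ((Fin 0 ⊕ T) × Bool) ⊕ LL) ∈ kS W i S' := by rw [h]
  rw [mem_kS_T, mem_kS_T] at h1
  simpa [y.2] using h1

lemma leg_cases (h2 : H462.Two W.use i x) (l : LL) :
    (∃ c t, l = (i c t, c)) ∨ ∃ p, W.use (inr l) = inr p := by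
  obtain ⟨j, c⟩ := l
  by_cases h3 : j = i c true
  · exact Or.inl ⟨c, true, by rw [h3]⟩
  by_cases h4 : j = i c false
  · exact Or.inl ⟨c, false, by rw [h4]⟩
  exact Or.inr (h2.rest c j h3 h4)

lemma leg_hf (hW : ∀ y z x, W.use y = inl x → W.use z = inl x → y = z) (hb : ∀ x, W.b x = 0)
    (h2 : H462.Two W.use i x) (c t : Bool) :
    (W.graft (g1 x)).hf (inr (i c t, c)) = (inl 0, if t then 1 else 0) := by
  rw [Env.graft_hf_leg, Env.usehf_inl (h2.pos c t), hb]
  have h1 : ((g1 x).hf (inr (x c t))).2 = if t then 1 else 0 := by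
    show (if x c t = x true true ∨ x c t = x false true then 1 else 0) = _
    cases t
    · rw [if_neg]
      · rfl
      · rintro (h | h)
        · exact absurd (x_inj hW h2 h).2 (by simp)
        · exact absurd (x_inj hW h2 h).2 (by simp)
    · rw [if_pos]
      · rfl
      · cases c
        · exact Or.inr rfl
        · exact Or.inl rfl
  rw [h1]
  rfl

lemma leg_iff (h2 : H462.Two W.use i x) (c t : Bool) :
    ((i c t, c) = (i true false, true) ∨ (i c t, c) = (i false false, false)) ↔ t = false := by
  constructor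
  · rintro (h | h)
    · have h3 := congrArg Prod.snd h
      have h4 := congrArg Prod.fst h
      dsimp only at h3 h4
      subst h3
      cases t
      · rfl
      · exact absurd h4 (h2.ne true)
    · have h3 := congrArg Prod.snd h
      have h4 := congrArg Prod.fst h
      dsimp only at h3 h4
      subst h3
      cases t
      · rfl
      · exact absurd h4 (h2.ne false)
  · rintro rfl
    cases c
    · exact Or.inr rfl
    · exact Or.inl rfl

lemma spl_iff (hW : ∀ y z x, W.use y = inl x → W.use z = inl x → y = z)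
    (hb : ∀ x, W.b x = 0) (h2 : H462.Two W.use i x) [Fintype (HH W)]
    (S' : Set (((Fin 0 ⊕ T) × Bool) ⊕ LL)) :
    Spl (W.graft (g1 x)).hf (inl 0) S' ↔ S' ∈ Set.range (kS W i) := by
  constructor
  · rintro ⟨s1, s2⟩
    refine ⟨Finset.univ.filter (fun y : HH W => inl (inr y.1.1, y.1.2) ∈ S'), ?_⟩
    ext y
    rcases y with ⟨e | t, s⟩ | l
    · exact e.elim0
    · rw [mem_kS_T]
      constructor
      · rintro ⟨y, hy, hy'⟩
        have h3 : inl (inr y.1.1, y.1.2) ∈ S' := by simpa using hy
        have h4 : y.1 = (t, s) := hy'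
        rw [h4] at h3
        exact h3
      · intro h
        have h3 := s1 _ h
        have h4 : (W.usehf (g1 x) (inl (t, s))).1 = inl 0 := h3
        rw [usehf_fst] at h4
        rcases hz : W.use (inl (t, s)) with z | p
        · have h0 : H17.ctr W (t, s) = none := by
            unfold H17.ctr
            rw [hz]
            rfl
          refine ⟨⟨(t, s), h0⟩, ?_, rfl⟩
          simpa using h
        · rw [hz] at h4
          cases h4
    · rw [mem_kS_leg]
      rcases leg_cases h2 l with ⟨c, t, rfl⟩ | ⟨p, hp⟩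
      · have h3 := s2 (i c t, c)
        rw [leg_hf hW hb h2] at h3
        rw [leg_iff h2, h3 rfl]
        cases t <;> simp
      · constructor
        · rintro (rfl | rfl)
          · rw [h2.pos true false] at hp
            cases hp
          · rw [h2.pos false false] at hp
            cases hp
        · intro h
          have h3 := s1 _ h
          rw [Env.graft_hf_leg, Env.usehf_inr hp] at h3
          cases h3
  · rintro ⟨S, rfl⟩
    constructor
    · rintro (⟨e | t, s⟩ | l) hy
      · exact e.elim0
      · rw [mem_kS_T] at hy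
        obtain ⟨y, -, hy⟩ := hy
        have h3 := use_pos y
        rw [hy] at h3
        show (W.usehf (g1 x) (inl (t, s))).1 = inl 0
        rw [usehf_fst, h3]
        rfl
      · rw [mem_kS_leg] at hy
        rcases hy with rfl | rfl
        · rw [leg_hf hW hb h2]
        · rw [leg_hf hW hb h2]
    · intro l hl
      rcases leg_cases h2 l with ⟨c, t, rfl⟩ | ⟨p, hp⟩
      · rw [mem_kS_leg, leg_hf hW hb h2, leg_iff h2]
        cases t <;> simp
      · rw [Env.graft_hf_leg, Env.usehf_inr hp] at hl
        cases hl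

/-- The vertices. -/
def p5 (v : Option (Fin 1 ⊕ R)) : Option (Option R) :=
  v.elim none fun v => some (v.elim (fun _ => none) some)

lemma p5_bij : (p5 : Option (Fin 1 ⊕ R) → _).Bijective := by
  constructor
  · rintro (_ | (w | r)) (_ | (w' | r')) h
    · rfl
    · simp [p5] at h
    · simp [p5] at h
    · simp [p5] at h
    · rw [Subsingleton.elim w w']
    · simp [p5] at h
    · simp [p5] at h
    · simp [p5] at h
    · simpa [p5] using h
  · rintro (_ | _ | r)
    · exact ⟨none, rfl⟩
    · exact ⟨some (inl 0), rfl⟩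
    · exact ⟨some (inr r), rfl⟩

/-- The half-edges. -/
def q5 (y : ((Fin 0 ⊕ T) ⊕ Bool) × Bool) : (T ⊕ Bool) × Bool :=
  (y.1.elim (fun e => e.elim (fun e => e.elim0) inl) inr, y.2)

lemma q5_bij : (q5 : ((Fin 0 ⊕ T) ⊕ Bool) × Bool → _).Bijective := by
  constructor
  · rintro ⟨(e | t) | b, s⟩ ⟨(e' | t') | b', s'⟩ h
    · exact e.elim0
    · exact e.elim0
    · exact e.elim0
    · exact e'.elim0
    · simpa [q5] using h
    · simp [q5] at h
    · exact e'.elim0
    · simp [q5] at h
    · simpa [q5] using h
  · rintro ⟨t | b, s⟩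
    · exact ⟨(inl (inr t), s), rfl⟩
    · exact ⟨(inr b, s), rfl⟩

/-- The vertices of the double edge graph. -/
def j5 (v : Fin 2 ⊕ R) : Option (Fin 1 ⊕ R) :=
  v.elim (fun w => if w = 1 then none else some (inl 0)) fun r => some (inr r)

lemma j5_inj : (j5 : Fin 2 ⊕ R → _).Injective := by
  rintro (w | r) (w' | r') h
  · have key : ∀ w w' : Fin 2, (w = 1 ↔ w' = 1) → w = w' := by decide
    congr 1
    apply key
    simp only [j5, elim_inl] at h
    split_ifs at h with h1 h2 h2
    · exact iff_of_true h1 h2
    · exact iff_of_false h1 h2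
  · simp only [j5, elim_inl, elim_inr] at h
    split_ifs at h
    simp at h
  · simp only [j5, elim_inl, elim_inr] at h
    split_ifs at h
    simp at h
  · simpa [j5] using h

lemma val_kS (hW : ∀ y z x, W.use y = inl x → W.use z = inl x → y = z)
    (hb : ∀ x, W.b x = 0) (h2 : H462.Two W.use i x) {φ : Und} (hφ : φ.Inv)
    (S : Finset (HH W)) :
    val φ (db (fun y => ((W.graft (g1 x)).hf y).1) (inl 0) (kS W i S)) =
      cc W x * φ _ _ (FS.dbf (H17.ctr W) none (Subtype.val '' (S : Set (HH W)))) := by
  unfold val cc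
  congr 1
  · rw [← sgM_comp j5_inj]
    congr 1
    funext l
    show (if inr l ∈ kS W i S then none else some ((W.graft (g1 x)).hf (inr l)).1) = _
    rcases leg_cases h2 l with ⟨c, t, rfl⟩ | ⟨p, hp⟩
    · rw [leg_hf hW hb h2, h2.pos]
      by_cases ht : t = false
      · rw [if_pos (mem_kS_leg.2 ((leg_iff h2 c t).2 ht))]
        subst ht
        show none = if (if x c false = x true false ∨ x c false = x false false then (1 : Fin 2)
          else 0) = 1 then none else some (inl 0)
        rw [if_pos]
        rw [if_pos]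
        cases c
        · exact Or.inr rfl
        · exact Or.inl rfl
      · rw [if_neg (fun h => ht ((leg_iff h2 c t).1 (mem_kS_leg.1 h)))]
        have h3 : ¬ (x c t = x true false ∨ x c t = x false false) := by
          rintro (h | h)
          · exact ht (x_inj hW h2 h).2
          · exact ht (x_inj hW h2 h).2
        show _ = if (if x c t = x true false ∨ x c t = x false false then (1 : Fin 2)
          else 0) = 1 then none else some (inl 0)
        rw [if_neg h3]
        rfl
    · rw [Env.graft_hf_leg, Env.usehf_inr hp, if_neg]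
      · rw [hp]
        rfl
      · rw [mem_kS_leg]
        rintro (rfl | rfl)
        · rw [h2.pos true false] at hp
          cases hp
        · rw [h2.pos false false] at hp
          cases hp
  · apply hφ _ _ _ _ _ _ p5 q5 p5_bij q5_bij
    · rintro ((e | t) | b)
      · exact e.elim0
      · rfl
      · rfl
    · rintro ⟨(e | t) | b, s⟩
      · exact e.elim0
      · show (if (t, s) ∈ Subtype.val '' (S : Set (HH W)) then none else some (H17.ctr W (t, s))) =
          p5 (if inl (inr t, s) ∈ kS W i S then none else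
            some ((W.graft (g1 x)).hf (inl (inr t, s))).1)
        by_cases h3 : (t, s) ∈ Subtype.val '' (S : Set (HH W))
        · rw [if_pos h3, if_pos (mem_kS_T.2 h3)]
          rfl
        · rw [if_neg h3, if_neg (fun h => h3 (mem_kS_T.1 h)), Env.graft_hf_inr, usehf_fst]
          unfold H17.ctr
          rcases W.use (inl (t, s)) with z | p
          · rfl
          · rfl
      · cases s <;> rfl

lemma exists_std [Fintype L] (hW : ∀ y z x, W.use y = inl x → W.use z = inl x → y = z)
    (h2 : H462.Two W.use i x) : ∃ ε, ε ∈ Std (x true) (x false) := by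
  refine ⟨fun z => if z = x true false ∨ z = x false false then 1 else 0, ?_⟩
  rw [Std, Finset.mem_filter]
  refine ⟨Finset.mem_univ _, if_pos (Or.inl rfl), if_neg ?_, if_pos (Or.inr rfl), if_neg ?_⟩
  · rintro (h | h)
    · exact absurd (x_inj hW h2 h).2 (by simp)
    · exact absurd (x_inj hW h2 h).2 (by simp)
  · rintro (h | h)
    · exact absurd (x_inj hW h2 h).2 (by simp)
    · exact absurd (x_inj hW h2 h).2 (by simp)

lemma card_L [Finite T] [Fintype L] [Fintype (HH W)]
    (hW : ∀ y z x, W.use y = inl x → W.use z = inl x → y = z) (h2 : H462.Two W.use i x) :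
    Fintype.card L = Fintype.card (HH W) + 4 + (JJ W).card := by
  obtain ⟨ε, hε⟩ := exists_std hW h2
  have a1 := nv_std h2 (fT4 1 0 1 0 ε) hε (fun _ => rfl) 1
  have a0 := nv_std h2 (fT4 1 0 1 0 ε) hε (fun _ => rfl) 0
  have b1 := nv_T hW (fT4 1 0 1 0 ε) 1
  have b0 := nv_T hW (fT4 1 0 1 0 ε) 0
  have c1 : kk W (fun x => ((fT4 1 0 1 0 ε).hf (inr x)).1) 1 = (sJ (JJ W) ε).card := kk_one ε
  have c0 : kk W (fun x => ((fT4 1 0 1 0 ε).hf (inr x)).1) 0 =
    (JJ W).card - (sJ (JJ W) ε).card := kk_zero ε
  have hle : (sJ (JJ W) ε).card ≤ (JJ W).card := Finset.card_le_card (Finset.filter_subset _ _)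
  rw [c1] at b1
  rw [c0] at b0
  rw [a1] at b1
  rw [a0, sH_zero] at b0
  have d1 : (Finset.univ.filter fun y : HH W => ε (pos W y) = 1).card = (sH (pos W) ε).card := rfl
  rw [d1] at b1
  have hp : pp (fun x => ((fT4 1 0 1 0 ε).hf (inr x)).1) 1 +
      pp (fun x => ((fT4 1 0 1 0 ε).hf (inr x)).1) 0 = Fintype.card L := by
    have h3 := Finset.card_filter_add_card_filter_not (s := (Finset.univ : Finset L))
      (fun z => ε z = 1)
    rw [Finset.card_univ] at h3
    rw [← h3]
    unfold pp
    congr 1
    · congr 1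
      ext z
      simp only [Finset.mem_filter, Finset.mem_univ, true_and]
      rfl
    · congr 1
      ext z
      have key : ∀ w : Fin 2, w = 0 ↔ ¬ w = 1 := by decide
      simp only [Finset.mem_filter, Finset.mem_univ, true_and]
      exact key (ε z)
  have hc := Finset.card_add_card_compl (sH (pos W) ε)
  omega

end Vale.Agent.P273.D14.H387
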