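import Vale.Agent.P273.D14.H387.Plug7

/-!
The functional `G` on grafted graphs satisfies the hypotheses of the evaluation.
-/

noncomputable section
namespace Vale.Agent.P273.D14.H387
open Sum Vale.Agent.P273 Vale.Agent.P273.D14.Mv Vale.Agent.P273.D14.H118
open scoped Classical

variable {V E R T L N : Type} {W : Env R T L LL} {i : Bool → Bool → Fin 8} {x : Bool → Bool → L}

lemma deg_g1 [Fintype L] (hW : ∀ y z x, W.use y = inl x → W.use z = inl x → y = z)
    (h2 : H462.Two W.use i x) : (g1 x).deg = 2 := by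
  unfold Gr.deg
  rw [finsum_eq_sum_of_fintype, finsum_eq_sum_of_fintype, Fintype.sum_sum_type]
  have h1 : ∑ z : L, ((g1 x).hf (inr z)).2 = 2 := by
    show ∑ z : L, (if z = x true true ∨ z = x false true then 1 else 0) = 2
    rw [← Finset.card_filter]
    have : (Finset.univ.filter fun z => z = x true true ∨ z = x false true) =
        {x true true, x false true} := by
      ext z
      simp
    rw [this, Finset.card_pair]
    intro h
    exact absurd (x_inj hW h2 h).1 (by simp)
  rw [h1]
  simp [pt1]

lemma four_le [Fintype L] (x : Bool → Bool → L) : 0 < Nat.card L := by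
  have : Nonempty L := ⟨x true true⟩
  exact Nat.card_pos

/-- The value at one vertex of genus one. -/
lemma val_g1 [Fintype L] [Fintype (HH W)] (hE : EOK W)
    (hW : ∀ y z x, W.use y = inl x → W.use z = inl x → y = z) (hb : ∀ x, W.b x = 0)
    (h2 : H462.Two W.use i x) {φ : Und} (hφ : φ.Inv) : ph φ W ⟨1, 0, g1 x⟩ =
      1 / 24 * (cc W x * (((Fintype.card (HH W) + 4).ascFactorial (JJ W).card : ℕ) : ℚ) *
        ∑ S : Finset (HH W),
          φ _ _ (FS.dbf (H17.ctr W) none (Subtype.val '' (S : Set (HH W))))) := by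
  have fR := hE.fR
  have fT := hE.fT
  have hu : W.unused (g1 x) 0 = Multiset.replicate (JJ W).card 0 := by
    have h3 := unused_zero (W := W) hb (Γ := g1 x) (v := 0) (by
      intro z hz _
      show (if z = x true true ∨ z = x false true then 1 else 0) = 0
      rw [if_neg]
      rintro (rfl | rfl)
      · exact hz ⟨_, h2.pos true true⟩
      · exact hz ⟨_, h2.pos false true⟩)
    rw [h3]
    congr 1
    unfold kk JJ
    congr 1
    ext z
    simp only [Finset.mem_filter, Finset.mem_univ, true_and, and_iff_left_iff_imp]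
    intro _
    exact Subsingleton.elim _ _
  have hn : (W.graft (g1 x)).nv (inl 0) = Fintype.card (HH W) + 4 := by
    have h3 := nv_graft_add W hW (g1 x) 0
    rw [hu, Multiset.card_replicate, nv_pt1, Nat.card_eq_fintype_card, card_L hW h2] at h3
    omega
  have hst : Q.Stab (W.graft (g1 x)).dec (W.graft (g1 x)).hf 2 9 := by
    have hs : (g1 x).Stab 1 := (stab_pt1 1 1 0 _).2 ⟨rfl, by have := four_le x; omega⟩
    apply hE.stab hW hb hs.1 hs.2.1 hs.2.2.1 (deg_g1 hW h2)
    intro v
    rw [Subsingleton.elim v 0, hn]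
    omega
  have h0 : ∀ r, 0 ∉ (W.dec r).2 := fun r => by rw [hE.dec]; simp
  have hr := rz_inl (Γ := g1 x) (v := 0) rfl hu
  have hty : Ty (rz (W.graft (g1 x)).dec) (W.graft (g1 x)).hf (inl 0) := by
    refine ⟨?_, ?_, ?_⟩
    · rw [hr.1]
      rfl
    · rintro (w | r) hw
      · exact absurd (congrArg inl (Subsingleton.elim w 0)) hw
      · exact rz_inr hE _ r
    · intro y
      exact exp_graft hE hb (Γ := g1 x) (P := fun v c => c ≠ 0 → v = inl 0)
        (fun y _ => congrArg inl (Subsingleton.elim _ _)) (fun r h => absurd rfl h) y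
  have hsum : ∑ᶠ y, ((W.graft (g1 x)).hf y).2 = 2 := by
    have h3 := hst.2.2.2.2.2.2
    have h4 : ∑ᶠ v, ((W.graft (g1 x)).dec v).2.sum = 0 := by
      apply finsum_eq_zero_of_forall_eq_zero
      intro v
      rw [← rz_sum]
      by_cases hv : v = inl 0
      · rw [hv, hr.1]
        rfl
      · rw [hty.2.1 v hv]
        rfl
    rw [h4, Nat.card_sum, hE.cT, Nat.card_eq_fintype_card, Fintype.card_fin] at h3
    omega
  have hol : OnL (W.graft (g1 x)).hf := by
    constructor
    · rintro ⟨e | t, s⟩
      · exact e.elim0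
      · rw [Env.graft_hf_inr]
        rcases hz : W.use (inl (t, s)) with z | p
        · rw [Env.usehf_inl hz, hb]
          show (if z = x true true ∨ z = x false true then 1 else 0) + 0 = 0
          rw [if_neg]
          rintro (rfl | rfl)
          · have := hW _ _ _ hz (h2.pos true true)
            cases this
          · have := hW _ _ _ hz (h2.pos false true)
            cases this
        · rw [Env.usehf_inr hz]
          exact hE.exp _ p hz
    · intro l
      rcases leg_cases h2 l with ⟨c, t, rfl⟩ | ⟨p, hp⟩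
      · rw [leg_hf hW hb h2]
        cases t <;> simp
      · rw [Env.graft_hf_leg, Env.usehf_inr hp]
        have := hE.exp _ p hp
        dsimp only
        omega
  show G φ _ _ _ _ = _
  rw [G_stab hst, G0_db hty (by rw [hr.1]) hsum hol, zfac_graft h0, Fin.prod_univ_one,
    hr.2.1, hr.2.2, hn]
  have e1 : ((g1 x).dec 0).1 = 1 := rfl
  have e2 : (2 * (((g1 x).dec 0).1 : ℚ) - 2 + ((Fintype.card (HH W) + 4 : ℕ) : ℚ) +
      ((Multiset.card (0 : Multiset ℕ) : ℕ) : ℚ)) = ((Fintype.card (HH W) + 4 : ℕ) : ℚ) := by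
    rw [e1]
    push_cast
    simp
  rw [e2, zf_asc]
  have e3 : ∑ᶠ (S) (_ : Spl (W.graft (g1 x)).hf (inl 0) S),
      val φ (db (fun y => ((W.graft (g1 x)).hf y).1) (inl 0) S) =
      ∑ S : Finset (HH W), cc W x *
        φ _ _ (FS.dbf (H17.ctr W) none (Subtype.val '' (S : Set (HH W)))) := by
    have e4 : ∑ᶠ (S) (_ : Spl (W.graft (g1 x)).hf (inl 0) S),
        val φ (db (fun y => ((W.graft (g1 x)).hf y).1) (inl 0) S) =
        ∑ᶠ (S) (_ : S ∈ Set.range (kS W i)),
        val φ (db (fun y => ((W.graft (g1 x)).hf y).1) (inl 0) S) := by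
      apply finsum_congr
      intro S
      rw [finsum_eq_if, finsum_eq_if]
      exact if_congr (spl_iff hW hb h2 S) rfl rfl
    rw [e4, finsum_mem_range kS_inj, finsum_eq_sum_of_fintype]
    apply Finset.sum_congr rfl
    intro S _
    exact val_kS hW hb h2 hφ S
  rw [e3, ← Finset.mul_sum]
  ring

/-- Vandermonde's identity for rising factorials. -/
lemma vdm_set (a b : ℚ) (J : Finset L) :
    ∑ K ∈ J.powerset, zf a K.card * zf b (J.card - K.card) = zf (a + b) J.card := by
  induction J using Finset.induction_on with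
  | empty => simp [zf_zero]
  | insert z J hz ih =>
    rw [Finset.sum_powerset_insert hz, ← Finset.sum_add_distrib, Finset.card_insert_of_notMem hz,
      zf_succ, ← ih, Finset.mul_sum]
    apply Finset.sum_congr rfl
    intro K hK
    rw [Finset.mem_powerset] at hK
    have h1 : z ∉ K := fun h => hz (hK h)
    have h2 := Finset.card_le_card hK
    rw [Finset.card_insert_of_notMem h1, show J.card + 1 - K.card = (J.card - K.card) + 1 by omega,
      show J.card + 1 - (K.card + 1) = J.card - K.card by omega, zf_succ, zf_succ]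
    have h3 : ((J.card - K.card : ℕ) : ℚ) = J.card - K.card := by
      rw [Nat.cast_sub h2]
    rw [h3]
    ring

/-- The value at the vertex of genus one is the sum over the double edges. -/
theorem v3_ph [Fintype L] {φ : Und} (hφ : φ.Inv) (hbr : φ.Br)
    (hW : ∀ y z x, W.use y = inl x → W.use z = inl x → y = z) (hb : ∀ x, W.b x = 0)
    (h0 : ∀ r, 0 ∉ (W.dec r).2) (h2 : H462.Two W.use i x) :
    ph φ W ⟨1, 0, g1 x⟩ =
      1 / 24 * ∑ ε ∈ Std (x true) (x false), ph φ W ⟨2, 2, fT4 1 0 1 0 ε⟩ := by
  by_cases hE : EOK W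
  · have fT := hE.fT
    have := Fintype.ofFinite T
    have : Fintype (HH W) := Fintype.ofFinite _
    rw [val_g1 hE hW hb h2 hφ]
    congr 1
    rw [Finset.sum_congr rfl (fun ε hε => val_db hE hW hb h2 hφ hε)]
    have h3 := sum_std (cov_of_two hW h2) (x_ne hW h2 true) (x_ne hW h2 false)
      (x_ne' hW h2) (fun S K => cc W x * ((((S.card + 2).ascFactorial K.card : ℕ) : ℚ) *
        (((Sᶜ.card + 2).ascFactorial ((JJ W).card - K.card) : ℕ) : ℚ)) *
        φ _ _ (FS.dbf (H17.ctr W) none (Subtype.val '' (S : Set (HH W)))))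
    rw [h3, Finset.mul_sum]
    apply Finset.sum_congr rfl
    intro S _
    rw [← Finset.sum_mul, ← Finset.mul_sum]
    congr 2
    simp only [← zf_asc]
    rw [vdm_set]
    have hc := Finset.card_add_card_compl S
    congr 1
    exact_mod_cast (show Fintype.card (HH W) + 4 = S.card + 2 + (Sᶜ.card + 2) by omega)
  · have h3 : ph φ W ⟨1, 0, g1 x⟩ = 0 := by
      by_contra h
      exact hE (eok_of_ne hbr hW h0 hb
        ((stab_pt1 1 1 0 _).2 ⟨rfl, by have := four_le x; omega⟩) (deg_g1 hW h2) h)
    have h4 : ∀ ε, ph φ W ⟨2, 2, fT4 1 0 1 0 ε⟩ = 0 := by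
      intro ε
      by_contra h
      exact hE (cond_of_ne hφ hbr hW hb h0 h2 1 (by simp [fT4]) rfl (deg_fT4 _ _ _ _ _) h).1
    rw [h3, Finset.sum_eq_zero (fun ε _ => h4 ε), mul_zero]

/-- **The properties of the functional on the inserted graphs.** -/
theorem nice2_ph [Fintype L] {φ : Und} (hφ : φ.Inv) (hbr : φ.Br)
    (hW : ∀ y z x, W.use y = inl x → W.use z = inl x → y = z) (hb : ∀ x, W.b x = 0)
    (h0 : ∀ r, 0 ∉ (W.dec r).2) (h2 : H462.Two W.use i x) :
    Nice2 (x true) (x false) (fun p => G φ _ _ (W.graft p.2.2).dec (W.graft p.2.2).hf) where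
  toNice := nice_ph hφ hW hb h2
  v2k := by
    intro e1 e2 h12 ε
    have h3 := T3_T4 hφ hbr hW hb h0 h2 h12 ε none (by
      rintro (y | y) h
      · exact absurd rfl h
      · exact absurd rfl h)
    rw [if_pos rfl] at h3
    refine h3.trans ?_
    congr 2
    push_cast
    congr 2
    unfold pp
    congr 1
    ext z
    simp
  v2x := by
    intro e1 e2 h12 ε z hz
    have h3 := T3_T4 hφ hbr hW hb h0 h2 h12 ε (some (inr z)) (by
      rintro (y | y) h
      · exact absurd rfl h
      · have h4 : (if (some (inr z) : Option (Bool ⊕ L)) = some (inr y) then 1 else 0) ≠ 0 := h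
        by_cases hzy : z = y
        · subst hzy
          exact hz
        · rw [if_neg (by simpa using hzy)] at h4
          exact absurd rfl h4)
    rw [if_neg (by simp)] at h3
    exact h3
  v2e := by
    intro e1 e2 h12 ε b hb'
    have h3 := T3_T4 hφ hbr hW hb h0 h2 h12 ε (some (inl b)) (by
      rintro (y | y) h
      · have h4 : (if (some (inl b) : Option (Bool ⊕ L)) = some (inl y.2) then 1 else 0) ≠ 0 := h
        by_cases hby : b = y.2
        · subst hby
          exact hb'
        · rw [if_neg (by simpa using hby)] at h4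
          exact absurd rfl h4
      · exact absurd rfl h)
    rw [if_neg (by simp)] at h3
    exact h3
  v3 := v3_ph hφ hbr hW hb h0 h2

end Vale.Agent.P273.D14.H387
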